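import Vale.Agent.P072.H603.Defs

namespace Vale.Agent.N072

/-- All coordinates of `x` lie in `[1/A, A]`. -/
def Box {d : ℕ} (A : ℝ) (x : Fin d → ℝ) : Prop := ∀ i, A⁻¹ ≤ x i ∧ x i ≤ A

end Vale.Agent.N072
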