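import Vale.Agent.N072.Poly
import Vale.Agent.P264Z.Brouwer

/-! # Dependence on the initial state, shifts, concatenation, fixed points -/

set_option linter.all false

namespace Vale.Agent.N072

open Vale.Agent.P072 MeasureTheory Set Metric

variable {d : ℕ}

/-- integral form of the Gronwall inequality -/
theorem gronwall {E : Type*} [NormedAddCommGroup E] [NormedSpace ℝ E]
    {g : ℝ → E → E} {K : ℝ} (hK : 0 ≤ K) {x z : ℝ → E} {T : ℝ} (hT : 0 ≤ T)
    (hlip : ∀ t ∈ Icc 0 T, ‖g t (x t) - g t (z t)‖ ≤ K * ‖x t - z t‖)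
    (hxc : ContinuousOn x (Icc 0 T)) (hzc : ContinuousOn z (Icc 0 T))
    (hxi : IntervalIntegrable (fun s => g s (x s)) volume 0 T)
    (hzi : IntervalIntegrable (fun s => g s (z s)) volume 0 T)
    (hx : ∀ t ∈ Icc 0 T, x t = x 0 + ∫ s in (0 : ℝ)..t, g s (x s))
    (hz : ∀ t ∈ Icc 0 T, z t = z 0 + ∫ s in (0 : ℝ)..t, g s (z s)) :
    ‖x T - z T‖ ≤ ‖x 0 - z 0‖ * Real.exp (K * T) := by
  let φ₀ : Icc (0 : ℝ) T → ℝ := fun s => ‖x s - z s‖
  let φ : ℝ → ℝ := IccExtend hT φ₀
  have hφ₀c : Continuous φ₀ := (hxc.sub hzc).norm.domRestrict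
  have hφc : Continuous φ := hφ₀c.Icc_extend'
  have hφe : ∀ s ∈ Icc 0 T, φ s = ‖x s - z s‖ := fun s hs => IccExtend_of_mem hT φ₀ hs
  have hφ0 : ∀ s, 0 ≤ φ s := fun s => norm_nonneg _
  let u : ℝ → ℝ := fun t => ‖x 0 - z 0‖ + K * ∫ s in (0 : ℝ)..t, φ s
  have hu : ∀ t, HasDerivAt u (K * φ t) t := fun t =>
    ((intervalIntegral.integral_hasDerivAt_right (hφc.intervalIntegrable _ _)
      (hφc.stronglyMeasurableAtFilter _ _) hφc.continuousAt).const_mul K).const_add _
  have hbound : ∀ t ∈ Icc 0 T, φ t ≤ u t := by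
    intro t ht
    have hsub : uIcc 0 t ⊆ uIcc 0 T := by
      rw [uIcc_of_le ht.1, uIcc_of_le hT]; exact Icc_subset_Icc le_rfl ht.2
    rw [hφe t ht, hx t ht, hz t ht, add_sub_add_comm,
      ← intervalIntegral.integral_sub (hxi.mono_set hsub) (hzi.mono_set hsub)]
    have h5 := intervalIntegral.norm_integral_le_of_norm_le (μ := volume) ht.1
      (f := fun s => g s (x s) - g s (z s)) (g := fun s => K * φ s)
      (Filter.Eventually.of_forall fun s hs => by
        have hs' : s ∈ Icc 0 T := ⟨hs.1.le, hs.2.trans ht.2⟩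
        rw [hφe s hs']
        exact hlip s hs')
      (Continuous.intervalIntegrable (by fun_prop) _ _)
    rw [intervalIntegral.integral_const_mul] at h5
    exact (norm_add_le _ _).trans (add_le_add le_rfl h5)
  have hgr := norm_le_gronwallBound_of_norm_deriv_right_le (f := u) (f' := fun t => K * φ t)
    (δ := ‖x 0 - z 0‖) (K := K) (ε := 0) (a := 0) (b := T)
    (fun t _ => (hu t).continuousAt.continuousWithinAt)
    (fun t _ => (hu t).hasDerivWithinAt) (by simp [u]) (by
      intro t ht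
      have h1 := hbound t ⟨ht.1, ht.2.le⟩
      rw [Real.norm_eq_abs, Real.norm_eq_abs, abs_of_nonneg (mul_nonneg hK (hφ0 t)),
        abs_of_nonneg ((hφ0 t).trans h1), add_zero]
      exact mul_le_mul_of_nonneg_left h1 hK)
  have h1 := hgr T ⟨hT, le_rfl⟩
  rw [gronwallBound_ε0, sub_zero] at h1
  rw [← hφe T ⟨hT, le_rfl⟩]
  exact (hbound T ⟨hT, le_rfl⟩).trans ((le_abs_self _).trans h1)

theorem Box.mem_ball {R : ℝ} {x : Fin d → ℝ} (h : Box R x) (hR : 0 < R) :
    x ∈ closedBall (0 : Fin d → ℝ) R := by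
  rw [mem_closedBall_zero_iff, pi_norm_le_iff_of_nonneg hR.le]
  intro i
  rw [Real.norm_of_nonneg (h.pos hR i).le]
  exact (h i).2

theorem field_lip (G : Network d) {A R : ℝ} (hA : 0 < A) (hR : 0 < R) : ∃ K : ℝ, 0 ≤ K ∧
    ∀ k : (Fin d → ℕ) × (Fin d → ℕ) → ℝ, (∀ r ∈ G.reactions, A⁻¹ ≤ k r ∧ k r ≤ A) →
      ∀ x y, Box R x → Box R y → ‖G.field k x - G.field k y‖ ≤ K * ‖x - y‖ := by
  let h : (Fin d → ℕ) × (Fin d → ℕ) → (Fin d → ℝ) → Fin d → ℝ := fun r x =>
    (∏ j, x j ^ r.1 j) • (fun i => (r.2 i : ℝ) - (r.1 i : ℝ) : Fin d → ℝ)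
  have hhc : ∀ r, ContDiff ℝ 1 (h r) := by
    intro r
    refine ContDiff.fun_smul ?_ contDiff_const
    apply contDiff_prod
    intro j _
    exact (contDiff_apply ℝ ℝ j).pow _
  choose K hK using fun r => (hhc r).contDiffOn.exists_lipschitzOnWith one_ne_zero
    (convex_closedBall (0 : Fin d → ℝ) R) (isCompact_closedBall 0 R)
  refine ⟨∑ r ∈ G.reactions, A * K r, Finset.sum_nonneg fun r _ => by positivity,
    fun k hk x y hx hy => ?_⟩
  have e : ∀ x, G.field k x = ∑ r ∈ G.reactions, k r • h r x := fun x =>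
    Finset.sum_congr rfl fun r _ => (smul_smul _ _ _).symm
  rw [e, e, ← Finset.sum_sub_distrib, Finset.sum_mul]
  refine (norm_sum_le _ _).trans (Finset.sum_le_sum fun r hr => ?_)
  rw [← smul_sub, norm_smul, Real.norm_of_nonneg ((inv_pos.2 hA).le.trans (hk r hr).1), mul_assoc]
  have h1 := (hK r).dist_le_mul x (hx.mem_ball hR) y (hy.mem_ball hR)
  rw [dist_eq_norm, dist_eq_norm] at h1
  exact mul_le_mul (hk r hr).2 h1 (norm_nonneg _) hA.le

/-- Lipschitz dependence on the initial state, uniformly in the rates -/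
theorem flow_lip (G : Network d) {A R : ℝ} (hA : 0 < A) (hR : 0 < R) : ∃ K : ℝ, 0 ≤ K ∧
    ∀ k, RatesIn G A⁻¹ A k → ∀ x z, IsGlobalCarSolution (G.tvField k) x →
      IsGlobalCarSolution (G.tvField k) z → (∀ t, 0 ≤ t → Box R (x t)) →
      (∀ t, 0 ≤ t → Box R (z t)) → ∀ t, 0 ≤ t →
      ‖x t - z t‖ ≤ ‖x 0 - z 0‖ * Real.exp (K * t) := by
  obtain ⟨K, hK, h⟩ := field_lip G hA hR
  refine ⟨K, hK, fun k hk x z hx hz bx bz t ht => ?_⟩
  have cx : ContinuousOn x (Icc 0 t) := hx.1.mono fun _ h => h.1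
  have cz : ContinuousOn z (Icc 0 t) := hz.1.mono fun _ h => h.1
  exact gronwall hK ht (fun s hs => h _ (fun r hr => (hk r hr).2 s hs.1) _ _ (bx s hs.1)
    (bz s hs.1)) cx cz (tvField_intervalIntegrable G hk le_rfl ht cx)
    (tvField_intervalIntegrable G hk le_rfl ht cz) (fun s hs => hx.2 s hs.1)
    fun s hs => hz.2 s hs.1

theorem shift {G : Network d} {a b : ℝ} {k : (Fin d → ℕ) × (Fin d → ℕ) → ℝ → ℝ}
    (hk : RatesIn G a b k) {x : ℝ → Fin d → ℝ} (hx : IsGlobalCarSolution (G.tvField k) x)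
    {T : ℝ} (hT : 0 ≤ T) :
    IsGlobalCarSolution (G.tvField fun r u => k r (u + T)) fun u => x (u + T) := by
  refine ⟨hx.1.comp (by fun_prop) fun u hu => add_nonneg hu hT, fun t ht => ?_⟩
  have h1 := car_increment G hk (hx.on (t + T + 1)) hT (le_add_of_nonneg_left ht)
    (lt_add_one _)
  have h2 := intervalIntegral.integral_comp_add_right (a := 0) (b := t)
    (fun s => G.tvField k s (x s)) T
  rw [zero_add] at h2
  show x (t + T) = x (0 + T) + ∫ s in (0 : ℝ)..t, G.tvField k (s + T) (x (s + T))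
  rw [h2, zero_add, ← h1]
  abel

theorem concat {G : Network d} {a b : ℝ} {x z : ℝ → Fin d → ℝ} (hx : TGlobal G a b x)
    (hz : TGlobal G a b z) {s : ℝ} (hs : 0 ≤ s) (h : z 0 = x s) :
    ∃ w, TGlobal G a b w ∧ w 0 = x 0 ∧ ∀ t, 0 ≤ t → w (s + t) = z t := by
  obtain ⟨k, hk, hx⟩ := hx
  obtain ⟨k', hk', hz⟩ := hz
  let w : ℝ → Fin d → ℝ := fun u => x (min u s) + (z (max (u - s) 0) - z 0)
  let κ : (Fin d → ℕ) × (Fin d → ℕ) → ℝ → ℝ := fun r u => if u ≤ s then k r u else k' r (u - s)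
  have hκ : RatesIn G a b κ := fun r hr => by
    refine ⟨Measurable.ite measurableSet_Iic (hk r hr).1 ((hk' r hr).1.comp (by fun_prop)),
      fun t ht => ?_⟩
    by_cases h1 : t ≤ s
    · simp only [κ, if_pos h1]; exact (hk r hr).2 t ht
    · simp only [κ, if_neg h1]; exact (hk' r hr).2 _ (by linarith [not_le.1 h1])
  have w1 : ∀ u, u ≤ s → w u = x u := fun u hu => by
    simp only [w, min_eq_left hu, max_eq_right (sub_nonpos.2 hu), sub_self, add_zero]
  have w2 : ∀ u, s ≤ u → w u = z (u - s) := fun u hu => by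
    simp only [w, min_eq_right hu, max_eq_left (sub_nonneg.2 hu), h]; abel
  have wc : ContinuousOn w (Ici 0) :=
    (hx.1.comp (by fun_prop) fun u hu => le_min hu hs).add
      ((hz.1.comp (by fun_prop) fun u _ => mem_Ici.2 (le_max_right _ _)).sub continuousOn_const)
  have i1 : ∀ u, 0 ≤ u → u ≤ s → ∫ r in (0 : ℝ)..u, G.tvField κ r (w r) = x u - x 0 := by
    intro u hu hus
    rw [hx.2 u hu, add_sub_cancel_left]
    refine intervalIntegral.integral_congr fun r hr => ?_
    rw [uIcc_of_le hu] at hr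
    have h1 : r ≤ s := hr.2.trans hus
    show G.field (fun q => κ q r) (w r) = G.field (fun q => k q r) (x r)
    simp only [κ, if_pos h1, w1 r h1]
  refine ⟨w, ⟨κ, hκ, wc, fun u hu => ?_⟩, w1 0 hs, fun t ht => ?_⟩
  · rw [w1 0 hs]
    rcases le_total u s with hus | hus
    · rw [i1 u hu hus, w1 u hus]; abel
    · rw [← intervalIntegral.integral_add_adjacent_intervals
        (tvField_intervalIntegrable G hκ le_rfl hs (wc.mono fun _ h => h.1))
        (tvField_intervalIntegrable G hκ hs hus (wc.mono fun _ h => hs.trans h.1)), i1 s hs le_rfl]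
      have h2 : ∫ r in s..u, G.tvField κ r (w r) =
          ∫ r in s..u, G.tvField k' (r - s) (z (r - s)) := by
        refine intervalIntegral.integral_congr_ae (Filter.Eventually.of_forall fun r hr => ?_)
        rw [uIoc_of_le hus] at hr
        show G.field (fun q => κ q r) (w r) = G.field (fun q => k' q (r - s)) (z (r - s))
        simp only [κ, if_neg (not_le.2 hr.1), w2 r hr.1.le]
      have h3 := intervalIntegral.integral_comp_sub_right (a := s) (b := u)
        (fun r => G.tvField k' r (z r)) s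
      rw [h2, h3, sub_self, w2 u hus, hz.2 (u - s) (sub_nonneg.2 hus), h]
      abel
  · rw [w2 _ (le_add_of_nonneg_right ht), add_sub_cancel_left]

theorem cont_eval {E : Type*} [NormedAddCommGroup E] {Q : Set E} {F : E → ℝ → E} {K : ℝ}
    {τ : E → ℝ} (h1 : ∀ x ∈ Q, ∀ y ∈ Q, ∀ t, 0 ≤ t → ‖F x t - F y t‖ ≤ ‖x - y‖ * Real.exp (K * t))
    (h2 : ∀ x ∈ Q, ContinuousOn (F x) (Ici 0)) (hτ : ContinuousOn τ Q) (h0 : ∀ x ∈ Q, 0 ≤ τ x) :
    ContinuousOn (fun x => F x (τ x)) Q := by
  intro y hy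
  rw [ContinuousWithinAt, tendsto_iff_norm_sub_tendsto_zero]
  have c1 : ContinuousWithinAt
      (fun x => ‖x - y‖ * Real.exp (K * τ x) + ‖F y (τ x) - F y (τ y)‖) Q y :=
    (((continuousWithinAt_id.sub continuousWithinAt_const).norm.mul
      (Real.continuous_exp.continuousAt.comp_continuousWithinAt
        (continuousWithinAt_const.mul (hτ y hy)))).add
      (((h2 y hy).comp hτ h0 y hy).sub continuousWithinAt_const).norm)
  have c2 := c1.tendsto
  simp only [sub_self, norm_zero, zero_mul, add_zero] at c2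
  refine squeeze_zero' (Filter.Eventually.of_forall fun _ => norm_nonneg _) ?_ c2
  filter_upwards [self_mem_nhdsWithin] with x hx
  exact (norm_sub_le_norm_sub_add_norm_sub _ (F y (τ x)) _).trans
    (add_le_add (h1 x hx y hy _ (h0 x hx)) le_rfl)

theorem approx {V : Type} [NormedAddCommGroup V] [NormedSpace ℝ V] {K : Set V} {T : V → V}
    (hK : IsCompact K) (hc : Convex ℝ K) {x₀ : V} (h₀ : x₀ ∈ K) (hT : ContinuousOn T K)
    (hm : MapsTo T K K) {ε : ℝ} (hε : 0 < ε) : ∃ y ∈ K, ‖T y - y‖ ≤ 2 * ε := by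
  obtain ⟨t, ht, hf, hcov⟩ := finite_cover_balls_of_compact hK hε
  have := hf.fintype
  let z : Option t → V := fun o => o.elim x₀ (↑)
  let w : (t → ℝ) → Option t → ℝ := fun u o =>
    o.elim (max 0 (ε - ∑ i, max 0 (u i))) fun i => max 0 (u i)
  have w0 : ∀ u o, 0 ≤ w u o := fun u o => by cases o <;> exact le_max_left _ _
  have ws : ∀ u, 0 < ∑ o, w u o := fun u => by
    rw [Fintype.sum_option]
    exact hε.trans_le (sub_le_iff_le_add.1 (le_max_right _ _))
  have wc : ∀ o, Continuous fun u => w u o := fun o => by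
    cases o <;> simp only [w, Option.elim] <;> fun_prop
  let φ : (t → ℝ) → V := fun u => Finset.univ.centerMass (w u) z
  have φK : ∀ u, φ u ∈ K := fun u => hc.centerMass_mem (fun o _ => w0 u o) (ws u) fun o _ => by
    cases o with
    | none => exact h₀
    | some i => exact ht i.2
  have φc : Continuous φ :=
    ((continuous_finsetSum _ fun o _ => wc o).inv₀ fun u => (ws u).ne').smul
      (continuous_finsetSum _ fun o _ => (wc o).smul continuous_const)
  have Tc : Continuous fun u => T (φ u) := hT.comp_continuous φc φK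
  let G : (t → ℝ) → t → ℝ := fun u i => max 0 (2 * ε - ‖T (φ u) - i‖)
  have Gc : Continuous G := continuous_pi fun i =>
    continuous_const.max (continuous_const.sub (Tc.sub continuous_const).norm)
  have Gb : ∀ u, ‖G u‖ ≤ 2 * ε := fun u => (pi_norm_le_iff_of_nonneg (by positivity)).2 fun i => by
    rw [Real.norm_of_nonneg (le_max_left _ _)]
    exact max_le (by positivity) (sub_le_self _ (norm_nonneg _))
  obtain ⟨u, -, hu⟩ := P264Z.exists_zero_of_sphere (E := t → ℝ) (r := 3 * ε) (by positivity)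
    (f := fun u => u - G u) (continuous_id.sub Gc).continuousOn fun u h1 s hs h2 => by
      have h3 : u = s • G u := by linear_combination (norm := module) h2
      have h4 := congrArg norm h3
      rw [h1, norm_smul, Real.norm_of_nonneg hs.1] at h4
      nlinarith [Gb u, hs.1, hs.2, norm_nonneg (G u)]
  have hi : ∀ i, max 0 (u i) = max 0 (2 * ε - ‖T (φ u) - i‖) := fun i => by
    rw [show u i = G u i from congrFun (sub_eq_zero.1 hu) i, ← max_assoc, max_self]
  have hn : w u none = 0 := by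
    obtain ⟨x, hx, k⟩ := mem_iUnion₂.1 (hcov (hm (φK u)))
    have k1 := Finset.single_le_sum (f := fun i => max 0 (u i)) (fun i _ => le_max_left _ _)
      (Finset.mem_univ (⟨x, hx⟩ : t))
    have k2 := (le_max_right _ _).trans_eq (hi ⟨x, hx⟩).symm
    rw [mem_ball, dist_eq_norm] at k
    exact max_eq_left (by linarith)
  refine ⟨φ u, φK u, mem_closedBall_iff_norm'.1 ?_⟩
  have h5 := (convex_closedBall (T (φ u)) (2 * ε)).centerMass_mem
    (t := Finset.univ.filter fun o => w u o ≠ 0) (w := w u) (z := z) (fun o _ => w0 u o)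
    (by rw [Finset.sum_filter_ne_zero]; exact ws u) fun o ho => by
      have k := (Finset.mem_filter.1 ho).2
      cases o with
      | none => exact (k hn).elim
      | some i =>
        refine mem_closedBall_iff_norm'.2 (le_of_not_gt fun c => k ((hi i).trans ?_))
        exact max_eq_left (sub_nonpos.2 c.le)
  rwa [Finset.centerMass_filter_ne_zero] at h5

/-- the fixed point theorem of Brouwer for compact convex sets -/
theorem fixed {V : Type} [NormedAddCommGroup V] [NormedSpace ℝ V] {K : Set V} {T : V → V}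
    (hK : IsCompact K) (hc : Convex ℝ K) (hne : K.Nonempty) (hT : ContinuousOn T K)
    (hm : MapsTo T K K) : ∃ x ∈ K, T x = x := by
  obtain ⟨x, hx, h⟩ := hK.exists_isMinOn hne (f := fun y => ‖T y - y‖)
    (hT.sub continuousOn_id).norm
  refine ⟨x, hx, sub_eq_zero.1 (norm_le_zero_iff.1 (le_of_forall_pos_le_add fun ε hε => ?_))⟩
  obtain ⟨y, hy, k⟩ := approx hK hc hx hT hm (half_pos hε)
  exact (h hy).trans (k.trans_eq (by ring))

end Vale.Agent.N072
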