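import Vale.Agent.N072.Flow

/-! # A Lyapunov function for all rates, periodic solutions, equilibria -/

set_option linter.all false

namespace Vale.Agent.N072

open Vale.Agent.P072 MeasureTheory Set Metric

variable {d : ℕ}

/-- logarithms of the coordinates -/
noncomputable def lg (x : Fin d → ℝ) : Fin d → ℝ := fun i => Real.log (x i)

theorem norm_lg_le {R : ℝ} {x : Fin d → ℝ} (h : Box R x) (hR : 1 ≤ R) : ‖lg x‖ ≤ Real.log R := by
  have hR0 : 0 < R := by linarith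
  rw [pi_norm_le_iff_of_nonneg (Real.log_nonneg hR)]
  intro i
  have h1 := Real.log_le_log (inv_pos.2 hR0) (h i).1
  rw [Real.log_inv] at h1
  exact abs_le.2 ⟨h1, Real.log_le_log (h.pos hR0 i) (h i).2⟩

theorem box_of_norm {a : ℝ} {x : Fin d → ℝ} (hx : ∀ i, 0 < x i) (h : ‖lg x‖ ≤ a) :
    Box (Real.exp a) x := fun i => by
  have h1 : |Real.log (x i)| ≤ a := (norm_le_pi_norm (lg x) i).trans h
  rw [← Real.exp_neg, ← Real.le_log_iff_exp_le (hx i), ← Real.log_le_iff_le_exp (hx i)]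
  exact abs_le.1 h1

theorem log_sub_le {R a b : ℝ} (hR : 0 < R) (ha : 0 < a) (hb : R⁻¹ ≤ b) :
    Real.log a - Real.log b ≤ R * |a - b| := by
  have hb0 : 0 < b := lt_of_lt_of_le (inv_pos.2 hR) hb
  rw [← Real.log_div ha.ne' hb0.ne']
  refine (Real.log_le_sub_one_of_pos (by positivity)).trans ?_
  have h1 : a / b - 1 = b⁻¹ * (a - b) := by field_simp
  have h2 : b⁻¹ ≤ R := by
    have := inv_anti₀ (inv_pos.2 hR) hb
    rwa [inv_inv] at this
  rw [h1]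
  exact (mul_le_mul_of_nonneg_left (le_abs_self _) (by positivity)).trans
    (mul_le_mul_of_nonneg_right h2 (abs_nonneg _))

theorem lg_lip {R : ℝ} (hR : 0 < R) {x y : Fin d → ℝ} (hx : Box R x) (hy : Box R y) :
    ‖lg x - lg y‖ ≤ R * ‖x - y‖ := by
  rw [pi_norm_le_iff_of_nonneg (by positivity)]
  intro i
  have h0 : |x i - y i| ≤ ‖x - y‖ := norm_le_pi_norm (x - y) i
  have h1 := log_sub_le hR (hx.pos hR i) (hy i).1
  have h2 := log_sub_le hR (hy.pos hR i) (hx i).1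
  rw [abs_sub_comm] at h2
  have h3 := mul_le_mul_of_nonneg_left h0 hR.le
  exact abs_le.2 ⟨by simp only [lg, Pi.sub_apply]; linarith,
    by simp only [lg, Pi.sub_apply]; linarith⟩

theorem exists_box {x : Fin d → ℝ} (hx : ∀ i, 0 < x i) (A : ℝ) :
    ∃ B, A ≤ B ∧ ∀ᶠ y in nhds x, Box B y := by
  have h1 : ContinuousAt (fun y : Fin d → ℝ => ‖lg y‖) x :=
    (continuousAt_pi.2 fun i => (continuous_apply i).continuousAt.log (hx i).ne').norm
  have h2 : ∀ᶠ y in nhds x, ∀ i, 0 < y i := Filter.eventually_all.2 fun i =>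
    (continuous_apply i).continuousAt.eventually (lt_mem_nhds (hx i))
  refine ⟨max A (Real.exp (‖lg x‖ + 1)), le_max_left _ _, ?_⟩
  filter_upwards [h2, h1.eventually (gt_mem_nhds (lt_add_one _))] with y a b
  exact (box_of_norm a b.le).mono (Real.exp_pos _) (le_max_right _ _)

theorem stay {G : Network d} (hG : G.Endotactic) {A : ℝ} (hA : 0 < A) {c : Fin d → ℝ}
    {x : ℝ → Fin d → ℝ} (hx : TGlobal G A⁻¹ A x) (h0 : x 0 ∈ G.posClass c) {t : ℝ}
    (ht : 0 ≤ t) : x t ∈ G.posClass c := by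
  have hs := seg_of_global hG hA hx h0.2 0 t le_rfl
  have h2 := G.stoich.add_mem (hs.sub_mem ht) h0.1
  rw [sub_add_sub_cancel] at h2
  exact ⟨h2, hs.2 t ⟨ht, le_rfl⟩⟩

theorem lyap (G : Network d) (hG : G.Endotactic) {A : ℝ} (hA : 2 ≤ A) {c : Fin d → ℝ}
    (hc : Box A c) : ∃ V : (Fin d → ℝ) → ℝ, ContinuousOn V (G.posClass c) ∧
      (∀ x ∈ G.posClass c, 0 ≤ V x) ∧
      (∀ a, ∃ B, A ≤ B ∧ ∀ x ∈ G.posClass c, V x ≤ a → Box B x) ∧
      ∀ x, TGlobal G A⁻¹ A x → x 0 ∈ G.posClass c → ∀ t, 0 ≤ t →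
        V (x t) ≤ Real.exp (-t) * V (x 0) := by
  obtain ⟨M, hM1, hM⟩ := poly G hG
  have hA0 : 0 < A := by linarith
  let ρ : (Fin d → ℝ) → ℝ := fun x => max 0 (‖lg x‖ - Real.log (A ^ M))
  have ρ0 : ∀ x, 0 ≤ ρ x := fun x => le_max_left _ _
  have hAM : 1 ≤ A ^ M := one_le_pow₀ (by linarith)
  have ρz : ∀ x, Box (A ^ M) x → ρ x = 0 := fun x hx =>
    max_eq_left (sub_nonpos.2 (norm_lg_le hx hAM))
  let S : (Fin d → ℝ) → Set ℝ := fun x =>
    {v | ∃ z t, TGlobal G A⁻¹ A z ∧ z 0 = x ∧ 0 ≤ t ∧ v = Real.exp t * ρ (z t)}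
  have hex : ∀ k, RatesIn G A⁻¹ A k → ∀ x ∈ G.posClass c,
      ∃ z, IsGlobalCarSolution (G.tvField k) z ∧ z 0 = x := fun k hk x hx =>
    (H603.tv_global_exists G hG A⁻¹ A (inv_pos.2 hA0) hA0 k hk x hx.2).1
  have hk1 : RatesIn G A⁻¹ A fun _ _ => 1 := fun r _ => ⟨measurable_const, fun _ _ =>
    ⟨inv_le_one_of_one_le₀ (by linarith), by linarith⟩⟩
  have Sρ : ∀ x ∈ G.posClass c, ρ x ∈ S x := fun x hx => by
    obtain ⟨z, hz, h0⟩ := hex _ hk1 x hx
    exact ⟨z, 0, ⟨_, hk1, hz⟩, h0, le_rfl, by rw [Real.exp_zero, one_mul, h0]⟩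
  have hall : ∀ B, A ≤ B → ∀ z, TGlobal G A⁻¹ A z → Box B (z 0) → ∀ t, 0 ≤ t →
      Box (B ^ M) (z t) := fun B hB z hz h0 =>
    (hM B (hA.trans hB) z (TGlobal.mono hA0 hB hz)).1 h0
  have Sb : ∀ x ∈ G.posClass c, BddAbove (S x) := fun x hx => by
    obtain ⟨B, hB, hb⟩ := exists_box hx.2 A
    have hBM : 1 ≤ B ^ M := one_le_pow₀ (by linarith)
    refine ⟨Real.exp (B ^ M) * Real.log (B ^ M), ?_⟩
    rintro _ ⟨z, t, hz, rfl, ht, rfl⟩
    have hl := Real.log_nonneg hBM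
    rcases le_total (B ^ M) t with h | h
    · rw [ρz _ ((hM A hA z hz).2 c hc hx.1 B hB hb.self_of_nhds t h), mul_zero]
      positivity
    · refine mul_le_mul (Real.exp_le_exp.2 h) (max_le hl ?_) (ρ0 _) (Real.exp_pos _).le
      linarith [norm_lg_le (hall B hB z hz hb.self_of_nhds t ht) hBM, Real.log_nonneg hAM]
  have Vρ : ∀ x ∈ G.posClass c, ρ x ≤ sSup (S x) := fun x hx => le_csSup (Sb x hx) (Sρ x hx)
  have lip : ∀ B, A ≤ B → ∃ K : ℝ, 0 ≤ K ∧ ∀ x ∈ G.posClass c, ∀ y ∈ G.posClass c, Box B x →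
      Box B y → sSup (S x) ≤ sSup (S y) + K * ‖x - y‖ := fun B hB => by
    have hBM : 0 < B ^ M := pow_pos (by linarith) _
    obtain ⟨K, hK, hl⟩ := flow_lip G hA0 hBM
    refine ⟨Real.exp (B ^ M) * (B ^ M * Real.exp (K * B ^ M)), by positivity,
      fun x hx y hy bx by' => csSup_le ⟨_, Sρ x hx⟩ ?_⟩
    rintro _ ⟨z, t, ⟨k, hk, hz⟩, rfl, ht, rfl⟩
    rcases le_total (B ^ M) t with h | h
    · rw [ρz _ ((hM A hA z ⟨k, hk, hz⟩).2 c hc hx.1 B hB bx t h), mul_zero]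
      exact add_nonneg ((ρ0 y).trans (Vρ y hy)) (by positivity)
    · obtain ⟨w, hw, rfl⟩ := hex k hk y hy
      have b1 := hall B hB z ⟨k, hk, hz⟩ bx
      have b2 := hall B hB w ⟨k, hk, hw⟩ by'
      have h1 : Real.exp t * ρ (w t) ≤ sSup (S (w 0)) :=
        le_csSup (Sb _ hy) ⟨w, t, ⟨k, hk, hw⟩, rfl, ht, rfl⟩
      have h2 := hl k hk z w hz hw b1 b2 t ht
      have h3 := lg_lip hBM (b1 t ht) (b2 t ht)
      have h4 : ρ (z t) ≤ ρ (w t) + ‖lg (z t) - lg (w t)‖ := by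
        have a1 := norm_sub_norm_le (lg (z t)) (lg (w t))
        have a2 : ‖lg (w t)‖ - Real.log (A ^ M) ≤ ρ (w t) := le_max_right _ _
        exact max_le (add_nonneg (ρ0 _) (norm_nonneg _)) (by linarith)
      have h5 : ‖lg (z t) - lg (w t)‖ ≤ B ^ M * Real.exp (K * B ^ M) * ‖z 0 - w 0‖ := by
        refine h3.trans ?_
        rw [mul_assoc]
        refine mul_le_mul_of_nonneg_left (h2.trans ?_) hBM.le
        rw [mul_comm]
        exact mul_le_mul_of_nonneg_right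
          (Real.exp_le_exp.2 (mul_le_mul_of_nonneg_left h hK)) (norm_nonneg _)
      calc Real.exp t * ρ (z t) ≤ Real.exp t * (ρ (w t) + ‖lg (z t) - lg (w t)‖) :=
            mul_le_mul_of_nonneg_left h4 (Real.exp_pos _).le
        _ = Real.exp t * ρ (w t) + Real.exp t * ‖lg (z t) - lg (w t)‖ := mul_add _ _ _
        _ ≤ _ := by
            refine add_le_add h1 ?_
            rw [mul_assoc]
            exact mul_le_mul (Real.exp_le_exp.2 h) h5 (norm_nonneg _) (Real.exp_pos _).le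
  refine ⟨fun x => sSup (S x), fun x hx => ?_, fun x hx => (ρ0 x).trans (Vρ x hx), fun a => ?_,
    fun x hx h0 s hs => ?_⟩
  · obtain ⟨B, hB, hb⟩ := exists_box hx.2 A
    obtain ⟨K, hK, hl⟩ := lip B hB
    have h1 : LipschitzOnWith ⟨K, hK⟩ (fun x => sSup (S x)) (G.posClass c ∩ {y | Box B y}) :=
      LipschitzOnWith.of_le_add_mul _ fun x hx y hy => by
        rw [dist_eq_norm]; exact hl x hx.1 y hy.1 hx.2 hy.2
    exact (continuousWithinAt_inter hb).1 (h1.continuousOn x ⟨hx, hb.self_of_nhds⟩)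
  · refine ⟨max A (Real.exp (a + Real.log (A ^ M))), le_max_left _ _, fun x hx h => ?_⟩
    have h1 : ‖lg x‖ - Real.log (A ^ M) ≤ ρ x := le_max_right _ _
    exact (box_of_norm hx.2 (by linarith [Vρ x hx])).mono (Real.exp_pos _) (le_max_right _ _)
  · refine csSup_le ⟨_, Sρ _ (stay hG hA0 hx h0 hs)⟩ ?_
    rintro _ ⟨z, t, hz, hz0, ht, rfl⟩
    obtain ⟨w, hw, w0, w1⟩ := concat hx hz hs hz0
    have h1 : Real.exp (s + t) * ρ (w (s + t)) ≤ sSup (S (x 0)) :=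
      le_csSup (Sb _ h0) ⟨w, s + t, hw, w0, add_nonneg hs ht, rfl⟩
    rw [w1 t ht] at h1
    refine le_trans (le_of_eq ?_) (mul_le_mul_of_nonneg_left h1 (Real.exp_pos (-s)).le)
    rw [← mul_assoc, ← Real.exp_add, neg_add_cancel_left]

/-- the part of the class in a box -/
def Cell (G : Network d) (c : Fin d → ℝ) (B : ℝ) : Set (Fin d → ℝ) :=
  {y | y - c ∈ G.stoich ∧ Box B y}

theorem cell_compact (G : Network d) (c : Fin d → ℝ) (B : ℝ) : IsCompact (Cell G c B) :=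
  isCompact_box_class G c B⁻¹ B

theorem cell_sub {G : Network d} {c : Fin d → ℝ} {B : ℝ} (hB : 0 < B) :
    Cell G c B ⊆ G.posClass c := fun _ h => ⟨h.1, h.2.pos hB⟩

theorem cell_convex (G : Network d) (c : Fin d → ℝ) (B : ℝ) : Convex ℝ (Cell G c B) := by
  intro x hx y hy a b ha hb hab
  refine ⟨?_, fun i => convex_Icc B⁻¹ B (hx.2 i) (hy.2 i) ha hb hab⟩
  have : a • x + b • y - c = a • (x - c) + b • (y - c) := by
    rw [smul_sub, smul_sub, sub_add_sub_comm, ← add_smul, hab, one_smul]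
  rw [this]
  exact G.stoich.add_mem (G.stoich.smul_mem _ hx.1) (G.stoich.smul_mem _ hy.1)

/-- For all rates and all `T ≥ 0` some solution returns to its initial state at time `T`. -/
theorem returns (G : Network d) (hG : G.Endotactic) {A : ℝ} (hA : 2 ≤ A) {c : Fin d → ℝ}
    (hc : Box A c) : ∃ B, A ≤ B ∧ ∀ k, RatesIn G A⁻¹ A k → ∀ T, 0 ≤ T →
      ∃ x, IsGlobalCarSolution (G.tvField k) x ∧ (∀ t, 0 ≤ t → x t ∈ Cell G c B) ∧
        x T = x 0 := by
  obtain ⟨V, Vc, V0, Vb, Vd⟩ := lyap G hG hA hc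
  obtain ⟨M, -, hM⟩ := poly G hG
  obtain ⟨B, hB, hb⟩ := Vb 1
  have hA0 : 0 < A := by linarith
  have hB0 : 0 < B := by linarith
  have sub := cell_sub (G := G) (c := c) hB0
  obtain ⟨K, -, hl⟩ := flow_lip G hA0 (pow_pos hB0 M)
  have hex : ∀ k, RatesIn G A⁻¹ A k → ∃ φ : (Fin d → ℝ) → ℝ → Fin d → ℝ,
      (∀ x ∈ Cell G c B, IsGlobalCarSolution (G.tvField k) (φ x) ∧ φ x 0 = x) ∧
      (∀ τ : (Fin d → ℝ) → ℝ, ContinuousOn τ (Cell G c B) → (∀ x ∈ Cell G c B, 0 ≤ τ x) →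
        ContinuousOn (fun x => φ x (τ x)) (Cell G c B)) ∧
      ∀ x ∈ Cell G c B, ∀ t, 0 ≤ t → Real.exp (-t) * V x ≤ 1 →
        φ x t ∈ Cell G c B ∧ V (φ x t) ≤ 1 := fun k hk => by
    have h1 : ∀ x, ∃ z : ℝ → Fin d → ℝ, x ∈ Cell G c B →
        IsGlobalCarSolution (G.tvField k) z ∧ z 0 = x := fun x => by
      by_cases hx : x ∈ Cell G c B
      · obtain ⟨z, hz⟩ := (H603.tv_global_exists G hG A⁻¹ A (inv_pos.2 hA0) hA0 k hk x
          (sub hx).2).1
        exact ⟨z, fun _ => hz⟩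
      · exact ⟨0, fun h => absurd h hx⟩
    choose φ hφ using h1
    have bx : ∀ x ∈ Cell G c B, ∀ t, 0 ≤ t → Box (B ^ M) (φ x t) := fun x hx =>
      (hM B (hA.trans hB) _ (TGlobal.mono hA0 hB ⟨k, hk, (hφ x hx).1⟩)).1
        (by rw [(hφ x hx).2]; exact hx.2)
    refine ⟨φ, hφ, fun τ h1 h2 => cont_eval (K := K) (fun x hx y hy t ht => ?_)
      (fun x hx => (hφ x hx).1.1) h1 h2, fun x hx t ht h => ?_⟩
    · have := hl k hk _ _ (hφ x hx).1 (hφ y hy).1 (bx x hx) (bx y hy) t ht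
      rwa [(hφ x hx).2, (hφ y hy).2] at this
    · have h0 : φ x 0 ∈ G.posClass c := by rw [(hφ x hx).2]; exact sub hx
      have h1 := Vd _ ⟨k, hk, (hφ x hx).1⟩ h0 t ht
      rw [(hφ x hx).2] at h1
      have h2 := stay hG hA0 ⟨k, hk, (hφ x hx).1⟩ h0 ht
      exact ⟨⟨h2.1, hb _ h2 (h1.trans h)⟩, h1.trans h⟩
  refine ⟨B, hB, fun k hk T hT => ?_⟩
  obtain ⟨φ, φ1, φ2, φ3⟩ := hex k hk
  let τ : (Fin d → ℝ) → ℝ := fun x => Real.log (max 1 (V x))
  have m0 : ∀ x, 0 < max 1 (V x) := fun x => lt_of_lt_of_le one_pos (le_max_left _ _)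
  have τ0 : ∀ x, 0 ≤ τ x := fun x => Real.log_nonneg (le_max_left _ _)
  have τc : ContinuousOn τ (Cell G c B) :=
    (continuousOn_const.sup (Vc.mono sub)).log fun x _ => (m0 x).ne'
  have r1 : ∀ x ∈ Cell G c B, φ x (τ x) ∈ Cell G c B ∧ V (φ x (τ x)) ≤ 1 := fun x hx =>
    φ3 x hx _ (τ0 x) (by
      rw [Real.exp_neg, Real.exp_log (m0 x), inv_mul_le_iff₀ (m0 x), mul_one]
      exact le_max_right _ _)
  have r2 : ∀ x ∈ Cell G c B, V x ≤ 1 → ∀ t, 0 ≤ t → φ x t ∈ Cell G c B ∧ V (φ x t) ≤ 1 :=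
    fun x hx h t ht => φ3 x hx t ht (mul_le_one₀ (Real.exp_le_one_iff.2 (by linarith))
      (V0 x (sub hx)) h)
  obtain ⟨x, hx, e⟩ := fixed (T := fun x => φ (φ x (τ x)) T) (cell_compact G c B)
    (cell_convex G c B) ⟨c, by simp, hc.mono hA0 hB⟩
    ((φ2 (fun _ => T) continuousOn_const fun _ _ => hT).comp (φ2 τ τc fun x _ => τ0 x)
      fun x hx => (r1 x hx).1)
    fun x hx => (r2 _ (r1 x hx).1 (r1 x hx).2 T hT).1
  have h1 : V x ≤ 1 := by
    have := (r2 _ (r1 x hx).1 (r1 x hx).2 T hT).2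
    rwa [e] at this
  have h2 : τ x = 0 := by simp only [τ, max_eq_left h1, Real.log_one]
  rw [h2, (φ1 x hx).2] at e
  exact ⟨φ x, (φ1 x hx).1, fun t ht => (r2 x hx h1 t ht).1, by rw [e, (φ1 x hx).2]⟩

theorem periodic (G : Network d) (hG : G.Endotactic) {A : ℝ} (hA : 2 ≤ A) {c : Fin d → ℝ}
    (hc : Box A c) {k : (Fin d → ℕ) × (Fin d → ℕ) → ℝ → ℝ} (hk : RatesIn G A⁻¹ A k) {T : ℝ}
    (hT : 0 ≤ T) (hp : ∀ᵐ t : ℝ, 0 ≤ t → ∀ y, G.tvField k (t + T) y = G.tvField k t y) :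
    ∃ x, IsGlobalCarSolution (G.tvField k) x ∧ (∀ t, 0 ≤ t → x t ∈ G.posClass c) ∧
      ∀ t, 0 ≤ t → x (t + T) = x t := by
  obtain ⟨B, hB, h⟩ := returns G hG hA hc
  obtain ⟨x, hx, hb, e⟩ := h k hk T hT
  have hA0 : 0 < A := by linarith
  have sub := cell_sub (G := G) (c := c) (show 0 < B by linarith)
  refine ⟨x, hx, fun t ht => sub (hb t ht), fun t ht => ?_⟩
  have h1 : IsGlobalCarSolution (G.tvField k) fun u => x (u + T) :=
    (isGlobalCarSolution_congr (k := fun r u => k r (u + T)) hp _).1 (shift hk hx hT)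
  exact (H603.tv_global_exists G hG A⁻¹ A (inv_pos.2 hA0) hA0 k hk (x 0)
    (sub (hb 0 le_rfl)).2).2 (t + 1) (by linarith) _ (h1.on _) (by simp only [zero_add, e]) x hx rfl
    ⟨ht, lt_add_one t⟩

theorem equilibrium (G : Network d) (hG : G.Endotactic) {A : ℝ} (hA : 2 ≤ A) {c : Fin d → ℝ}
    (hc : Box A c) {k : (Fin d → ℕ) × (Fin d → ℕ) → ℝ}
    (hk : ∀ r ∈ G.reactions, A⁻¹ ≤ k r ∧ k r ≤ A) : ∃ b ∈ G.posClass c, G.field k b = 0 := by
  obtain ⟨B, hB, h⟩ := returns G hG hA hc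
  have hA0 : 0 < A := by linarith
  have hB0 : 0 < B := by linarith
  have hk' : RatesIn G A⁻¹ A fun r _ => k r := fun r hr => ⟨measurable_const, fun _ _ => hk r hr⟩
  have fc := (field_contDiff G k).continuous
  obtain ⟨K, hK, hl⟩ := field_lip G hA0 hB0
  obtain ⟨m, hm⟩ := (cell_compact G c B).exists_bound_of_continuousOn fc.continuousOn
  have hne : (Cell G c B).Nonempty := ⟨c, by simp, hc.mono hA0 hB⟩
  have hm0 : 0 ≤ m := hne.elim fun y hy => (norm_nonneg _).trans (hm y hy)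
  obtain ⟨b, hb, hmin⟩ := (cell_compact G c B).exists_isMinOn hne fc.norm.continuousOn
  refine ⟨b, cell_sub hB0 hb, norm_le_zero_iff.1 (le_of_forall_pos_le_add fun δ hδ => ?_)⟩
  set T := δ / (K * m + 1) with hT
  have hT0 : 0 < T := by positivity
  obtain ⟨x, hx, hcell, e⟩ := h _ hk' T hT0.le
  have h1 : ∀ s ∈ uIoc 0 T, ‖G.field k (x 0) - G.field k (x s)‖ ≤ K * (m * T) := by
    intro s hs
    rw [uIoc_of_le hT0.le] at hs
    refine (hl k hk _ _ (hcell 0 le_rfl).2 (hcell s hs.1.le).2).trans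
      (mul_le_mul_of_nonneg_left ?_ hK)
    rw [hx.2 s hs.1.le, sub_add_cancel_left, norm_neg]
    refine (intervalIntegral.norm_integral_le_of_norm_le_const (C := m) fun u hu => ?_).trans ?_
    · rw [uIoc_of_le hs.1.le] at hu
      exact hm _ (hcell u hu.1.le)
    · rw [sub_zero, abs_of_pos hs.1]
      exact mul_le_mul_of_nonneg_left hs.2 hm0
  have h2 := intervalIntegral.norm_integral_le_of_norm_le_const h1
  have h3 : ∫ s in (0 : ℝ)..T, G.field k (x s) = 0 := by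
    have := hx.2 T hT0.le
    rw [e] at this
    exact (add_eq_left.1 this.symm)
  have h4 : IntervalIntegrable (fun s => G.field k (x s)) volume 0 T :=
    tvField_intervalIntegrable G hk' le_rfl hT0.le (hx.1.mono fun _ h => h.1)
  rw [intervalIntegral.integral_sub intervalIntegrable_const h4, h3, sub_zero,
    intervalIntegral.integral_const, sub_zero, norm_smul, Real.norm_eq_abs, abs_of_pos hT0,
    mul_comm] at h2
  have h5 : ‖G.field k (x 0)‖ ≤ K * (m * T) := le_of_mul_le_mul_right h2 hT0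
  have h6 : K * (m * T) ≤ δ := by
    rw [hT, ← mul_assoc, ← mul_div_assoc, div_le_iff₀ (by positivity)]
    nlinarith
  have h7 : ‖G.field k b‖ ≤ ‖G.field k (x 0)‖ := hmin (hcell 0 le_rfl)
  linarith

end Vale.Agent.N072
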