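import Vale.Agent.N072.Lyap

/-! # Sharpness of the polynomial order, and the statements for admissible rates -/

set_option linter.all false

namespace Vale.Agent.N072

open Vale.Agent.P072 MeasureTheory Set

variable {d : ℕ}

theorem monomial_both (G : Network d) : ∃ D : ℕ, ∀ R : ℝ, 2 ≤ R → ∀ x : Fin d → ℝ,
    Box R x → ∀ r ∈ G.reactions, (R ^ D)⁻¹ ≤ ∏ i, x i ^ r.1 i ∧ ∏ i, x i ^ r.1 i ≤ R ^ D := by
  obtain ⟨N, hN⟩ := exists_exponent_bound G
  obtain ⟨D, hD⟩ := monomial_lower G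
  refine ⟨D + N * d, fun R hR x hx r hr =>
    ⟨(inv_pow_le hR (by omega)).trans (hD R hR x hx r hr), ?_⟩⟩
  have h1 : R ^ (N * d) = ∏ _i : Fin d, R ^ N := by
    rw [Finset.prod_const, Finset.card_univ, Fintype.card_fin, ← pow_mul]
  refine le_trans ?_ (pow_le_pow_right₀ (by linarith) (Nat.le_add_left (N * d) D))
  rw [h1]
  have hp := hx.pos (by linarith)
  exact Finset.prod_le_prod (fun i _ => (pow_pos (hp i) _).le) fun i _ =>
    (pow_le_pow_left₀ (hp i).le (hx i).2 _).trans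
      (pow_le_pow_right₀ (by linarith) (hN _ (G.source_mem r hr) i))

/-- With suitable constant rates in `[A^(-m), A^m]` no solution stays in `[1/A, A]^d`. -/
theorem sharp (G : Network d) (hne : G.reactions.Nonempty) : ∃ m : ℕ, ∀ A : ℝ, 2 ≤ A →
    ∃ k : (Fin d → ℕ) × (Fin d → ℕ) → ℝ, (∀ r, (A ^ m)⁻¹ ≤ k r ∧ k r ≤ A ^ m) ∧
      ∀ x, IsGlobalSolution (G.field k) x → ∀ t₀, ∃ t ≥ t₀, ¬ Box A (x t) := by
  classical
  obtain ⟨r₀, hr₀⟩ := hne
  obtain ⟨D, hD⟩ := monomial_both G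
  let v : Fin d → ℝ := fun i => (r₀.2 i : ℝ) - (r₀.1 i : ℝ)
  let a : (Fin d → ℕ) × (Fin d → ℕ) → ℝ := fun r => ∑ i, v i * ((r.2 i : ℝ) - (r.1 i : ℝ))
  have ha : 1 ≤ a r₀ := by
    obtain ⟨i, hi⟩ := Function.ne_iff.1 (G.source_ne_target r₀ hr₀)
    refine le_trans ?_ (Finset.single_le_sum (f := fun i => v i * v i)
      (fun i _ => mul_self_nonneg _) (Finset.mem_univ i))
    have h1 : (1 : ℤ) ≤ ((r₀.2 i : ℤ) - r₀.1 i) * ((r₀.2 i : ℤ) - r₀.1 i) :=
      Int.add_one_le_of_lt (mul_self_pos.2 (show ((r₀.2 i : ℤ) - r₀.1 i) ≠ 0 by omega))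
    show (1 : ℝ) ≤ ((r₀.2 i : ℝ) - r₀.1 i) * ((r₀.2 i : ℝ) - r₀.1 i)
    exact_mod_cast h1
  obtain ⟨q, hq⟩ := le_pow (∑ r ∈ G.reactions, |a r|)
  refine ⟨D + q + 1, fun A hA => ?_⟩
  have hA0 : 0 < A := by linarith
  have hA1 : 1 ≤ A := by linarith
  have hm1 : (A ^ (D + q + 1))⁻¹ ≤ A ^ (D + q + 1) :=
    (inv_le_one_of_one_le₀ (one_le_pow₀ hA1)).trans (one_le_pow₀ hA1)
  refine ⟨fun r => if r = r₀ then A ^ (D + q + 1) else (A ^ (D + q + 1))⁻¹, fun r => ?_,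
    fun x hx t₀ => ?_⟩
  · by_cases h : r = r₀
    · simp only [if_pos h]; exact ⟨hm1, le_rfl⟩
    · simp only [if_neg h]; exact ⟨le_rfl, hm1⟩
  set k : (Fin d → ℕ) × (Fin d → ℕ) → ℝ :=
    fun r => if r = r₀ then A ^ (D + q + 1) else (A ^ (D + q + 1))⁻¹ with hk
  have key : ∀ y, Box A y → 1 ≤ ∑ i, v i * G.field k y i := fun y hy => by
    rw [sum_mul_field, ← Finset.add_sum_erase _ _ hr₀]
    have h1 : 2 ≤ (k r₀ * ∏ j, y j ^ r₀.1 j) * a r₀ := by
      have h2 : A ^ (D + q + 1) * (A ^ D)⁻¹ ≤ k r₀ * ∏ j, y j ^ r₀.1 j := by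
        simp only [hk, if_true]
        exact mul_le_mul_of_nonneg_left (hD A hA y hy r₀ hr₀).1 (by positivity)
      have h3 : A ^ (D + q + 1) * (A ^ D)⁻¹ = A ^ q * A := by
        rw [pow_succ, pow_add]; field_simp
      have h4 : 1 ≤ A ^ q := one_le_pow₀ hA1
      have h5 : 2 ≤ k r₀ * ∏ j, y j ^ r₀.1 j := by nlinarith
      nlinarith
    have h2 : ∑ r ∈ G.reactions.erase r₀, -((A ^ q)⁻¹ * |a r|) ≤
        ∑ r ∈ G.reactions.erase r₀, (k r * ∏ j, y j ^ r.1 j) * a r := by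
      refine Finset.sum_le_sum fun r hr => ?_
      obtain ⟨h3, h4⟩ := Finset.mem_erase.1 hr
      have h5 := hD A hA y hy r h4
      have h6 : 0 ≤ k r * ∏ j, y j ^ r.1 j := by
        simp only [hk, if_neg h3]
        exact mul_nonneg (by positivity) (le_trans (by positivity) h5.1)
      have h7 : k r * ∏ j, y j ^ r.1 j ≤ (A ^ q)⁻¹ := by
        simp only [hk, if_neg h3]
        refine (mul_le_mul_of_nonneg_left h5.2 (by positivity)).trans ?_
        have : (A ^ (D + q + 1))⁻¹ * A ^ D = (A ^ (q + 1))⁻¹ := by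
          rw [add_assoc, pow_add]; field_simp
        rw [this]
        exact inv_pow_le hA (by omega)
      nlinarith [neg_abs_le (a r), abs_nonneg (a r)]
    have h3 : ∑ r ∈ G.reactions.erase r₀, (A ^ q)⁻¹ * |a r| ≤ 1 := by
      rw [← Finset.mul_sum, inv_mul_le_iff₀ (by positivity), mul_one]
      exact (Finset.sum_le_sum_of_subset_of_nonneg (Finset.erase_subset _ _)
        fun r _ _ => abs_nonneg _).trans (hq A hA)
    rw [Finset.sum_neg_distrib] at h2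
    show 1 ≤ (k r₀ * ∏ j, y j ^ r₀.1 j) * a r₀ +
      ∑ r ∈ G.reactions.erase r₀, (k r * ∏ j, y j ^ r.1 j) * a r
    linarith
  by_contra hcon
  push Not at hcon
  set s := max t₀ 1 with hs
  have hs0 : 0 < s := lt_of_lt_of_le one_pos (le_max_right _ _)
  have hder : ∀ t ∈ Ici s, HasDerivAt (fun t => ∑ i, v i * x t i)
      (∑ i, v i * G.field k (x t) i) t := fun t ht => by
    have h1 : 0 < t := hs0.trans_le ht
    have h2 := (hx t h1.le).hasDerivAt (Ici_mem_nhds h1)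
    exact HasDerivAt.fun_sum fun i _ => (hasDerivAt_pi.1 h2 i).const_mul _
  set W := ∑ i, |v i| * A with hW
  have hb : ∀ t ∈ Ici s, |∑ i, v i * x t i| ≤ W := fun t ht => by
    have h1 := hcon t ((le_max_left _ _).trans ht)
    refine (Finset.abs_sum_le_sum_abs _ _).trans (Finset.sum_le_sum fun i _ => ?_)
    rw [abs_mul, abs_of_pos (h1.pos hA0 i)]
    exact mul_le_mul_of_nonneg_left (h1 i).2 (abs_nonneg _)
  have hW0 : 0 ≤ W := (abs_nonneg _).trans (hb s self_mem_Ici)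
  have hle : s ≤ s + (2 * W + 1) := by linarith
  have hmv := (convex_Ici s).mul_sub_le_image_sub_of_le_deriv
    (f := fun t => ∑ i, v i * x t i) (C := 1)
    (fun t ht => (hder t ht).continuousAt.continuousWithinAt)
    (fun t ht => (hder t (interior_subset ht)).differentiableAt.differentiableWithinAt)
    (fun t ht => by
      rw [(hder t (interior_subset ht)).deriv]
      exact key _ (hcon t ((le_max_left _ _).trans (interior_subset ht))))
    s self_mem_Ici _ hle hle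
  have h1 := abs_le.1 (hb s self_mem_Ici)
  have h2 := abs_le.1 (hb _ hle)
  linarith [h1.1, h2.2]

theorem choose_size {c : Fin d → ℝ} (hc : ∀ i, 0 < c i) (a : ℝ) :
    ∃ A, 2 ≤ A ∧ a ≤ A ∧ Box A c := by
  obtain ⟨B, hB, h⟩ := exists_box hc (max 2 a)
  exact ⟨B, (le_max_left _ _).trans hB, (le_max_right _ _).trans hB, h.self_of_nhds⟩

theorem rates_of_adm {G : Network d} {ε A : ℝ} (hε : 0 < ε) (hA : ε⁻¹ ≤ A)
    {k : (Fin d → ℕ) × (Fin d → ℕ) → ℝ → ℝ} (hk : Admissible G ε k) :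
    ∃ k', RatesIn G A⁻¹ A k' ∧ ∀ᵐ t : ℝ, 0 ≤ t → ∀ x, G.tvField k t x = G.tvField k' t x := by
  obtain ⟨k', hk', h⟩ := hk.exists_ratesIn
  have h1 : A⁻¹ ≤ ε := by
    have := inv_anti₀ (inv_pos.2 hε) hA
    rwa [inv_inv] at this
  exact ⟨k', fun r hr => ⟨(hk' r hr).1, fun t ht =>
    ⟨h1.trans ((hk' r hr).2 t ht).1, ((hk' r hr).2 t ht).2.trans hA⟩⟩, h⟩

theorem poly_adm (G : Network d) (hG : G.Endotactic) : ∃ M : ℕ, ∀ A : ℝ, 2 ≤ A →
    ∀ k, Admissible G A⁻¹ k → ∀ x, IsGlobalCarSolution (G.tvField k) x →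
      (Box A (x 0) → ∀ t ≥ 0, Box (A ^ M) (x t)) ∧
      ∀ c, Box A c → x 0 ∈ G.posClass c → ∀ B ≥ A, Box B (x 0) →
        ∀ t ≥ B ^ M, Box (A ^ M) (x t) := by
  obtain ⟨M, -, hM⟩ := poly G hG
  refine ⟨M, fun A hA k hk x hx => ?_⟩
  obtain ⟨k', hk', h⟩ := rates_of_adm (inv_pos.2 (by linarith)) (inv_inv A).le hk
  have := hM A hA x ⟨k', hk', (isGlobalCarSolution_congr h x).1 hx⟩
  exact ⟨this.1, fun c hc h0 => this.2 c hc h0.1⟩

theorem lyap_adm (G : Network d) (hG : G.Endotactic) {c : Fin d → ℝ} (hc : ∀ i, 0 < c i)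
    {ε : ℝ} (hε : 0 < ε) : ∃ V : (Fin d → ℝ) → ℝ, ContinuousOn V (G.posClass c) ∧
      (∀ x ∈ G.posClass c, 0 ≤ V x) ∧ (∀ a, IsCompact {x ∈ G.posClass c | V x ≤ a}) ∧
      ∀ k, Admissible G ε k → ∀ x, IsGlobalCarSolution (G.tvField k) x → x 0 ∈ G.posClass c →
        ∀ t ≥ 0, V (x t) ≤ Real.exp (-t) * V (x 0) := by
  obtain ⟨A, hA, hεA, hb⟩ := choose_size hc ε⁻¹
  obtain ⟨V, Vc, V0, Vb, Vd⟩ := lyap G hG hA hb
  refine ⟨V, Vc, V0, fun a => ?_, fun k hk x hx h0 => ?_⟩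
  · obtain ⟨B, hB, h⟩ := Vb a
    have sub := cell_sub (G := G) (c := c) (show 0 < B by linarith)
    have e : {x ∈ G.posClass c | V x ≤ a} = Cell G c B ∩ V ⁻¹' Iic a :=
      Set.ext fun x => ⟨fun hx => ⟨⟨hx.1.1, h x hx.1 hx.2⟩, hx.2⟩, fun hx => ⟨sub hx.1, hx.2⟩⟩
    rw [e]
    exact (cell_compact G c B).of_isClosed_subset
      ((Vc.mono sub).preimage_isClosed_of_isClosed (cell_compact G c B).isClosed isClosed_Iic)
      inter_subset_left
  · obtain ⟨k', hk', h⟩ := rates_of_adm hε hεA hk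
    exact Vd x ⟨k', hk', (isGlobalCarSolution_congr h x).1 hx⟩ h0

theorem periodic_adm (G : Network d) (hG : G.Endotactic) {c : Fin d → ℝ} (hc : ∀ i, 0 < c i)
    {ε : ℝ} (hε : 0 < ε) {k : (Fin d → ℕ) × (Fin d → ℕ) → ℝ → ℝ} (hk : Admissible G ε k)
    {T : ℝ} (hT : 0 < T) (hp : ∀ r ∈ G.reactions, ∀ t ≥ 0, k r (t + T) = k r t) :
    ∃ x, IsGlobalCarSolution (G.tvField k) x ∧
      ∀ t ≥ 0, x t ∈ G.posClass c ∧ x (t + T) = x t := by
  obtain ⟨A, hA, hεA, hb⟩ := choose_size hc ε⁻¹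
  obtain ⟨k', hk', h⟩ := rates_of_adm hε hεA hk
  have h' := (measurePreserving_add_right volume T).quasiMeasurePreserving.ae h
  obtain ⟨x, hx, h1, h2⟩ := periodic G hG hA hb hk' hT.le (by
    filter_upwards [h, h'] with t a b ht y
    rw [← a ht y, ← b (by linarith) y]
    refine Finset.sum_congr rfl fun r hr => ?_
    show (k r (t + T) * _) • _ = (k r t * _) • _
    rw [hp r hr t ht])
  exact ⟨x, (isGlobalCarSolution_congr h x).2 hx, fun t ht => ⟨h1 t ht, h2 t ht⟩⟩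

theorem equilibrium_pos (G : Network d) (hG : G.Endotactic) {c : Fin d → ℝ} (hc : ∀ i, 0 < c i)
    {k : (Fin d → ℕ) × (Fin d → ℕ) → ℝ} (hk : ∀ r ∈ G.reactions, 0 < k r) :
    ∃ b ∈ G.posClass c, G.field k b = 0 := by
  obtain ⟨A, hA, h1, hb⟩ := choose_size hc (∑ r ∈ G.reactions, (k r + (k r)⁻¹))
  refine equilibrium G hG hA hb fun r hr => ?_
  have h2 := (Finset.single_le_sum (f := fun r => k r + (k r)⁻¹)
    (fun r hr => by have := hk r hr; positivity) hr).trans h1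
  have h3 := hk r hr
  have h4 := inv_pos.2 h3
  refine ⟨?_, by linarith⟩
  have := inv_anti₀ h4 (show (k r)⁻¹ ≤ A by linarith)
  rwa [inv_inv] at this

end Vale.Agent.N072
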