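import Vale.Agent.N072.Pot
import Vale.Agent.N072.Defs

/-! # Permanence with polynomial bounds -/

set_option linter.all false

namespace Vale.Agent.N072

open Vale.Agent.P072 MeasureTheory

variable {d : ℕ}

/-- `f A ≤ A ^ m` for all `A ≥ 2` -/
def PB (f : ℝ → ℝ) : Prop := ∃ m : ℕ, ∀ A : ℝ, 2 ≤ A → f A ≤ A ^ m

theorem PB.const (c : ℝ) : PB fun _ => c := le_pow c

theorem PB.pow (j : ℕ) : PB fun A => A ^ j := ⟨j, fun _ _ => le_rfl⟩

theorem PB.id : PB fun A => A := ⟨1, fun _ _ => by simp⟩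

theorem PB.add {f g : ℝ → ℝ} (hf : PB f) (hg : PB g) : PB fun A => f A + g A := by
  obtain ⟨a, ha⟩ := hf
  obtain ⟨b, hb⟩ := hg
  refine ⟨a + b + 1, fun A hA => ?_⟩
  have h1 : A ^ a ≤ A ^ (a + b) := pow_le_pow_right₀ (by linarith) (by omega)
  have h2 : A ^ b ≤ A ^ (a + b) := pow_le_pow_right₀ (by linarith) (by omega)
  have h3 : 0 ≤ A ^ (a + b) := by positivity
  have h4 := ha A hA
  have h5 := hb A hA
  show f A + g A ≤ _
  rw [pow_succ]
  nlinarith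

theorem PB.mul {f g : ℝ → ℝ} (hf : PB f) (hg : PB g) (h0 : ∀ A, 2 ≤ A → 0 ≤ g A) :
    PB fun A => f A * g A := by
  obtain ⟨a, ha⟩ := hf
  obtain ⟨b, hb⟩ := hg
  refine ⟨a + b, fun A hA => ?_⟩
  rw [pow_add]
  exact mul_le_mul (ha A hA) (hb A hA) (h0 A hA) (by positivity)

theorem inv_pow_le {A : ℝ} (hA : 2 ≤ A) {a b : ℕ} (h : a ≤ b) : (A ^ b)⁻¹ ≤ (A ^ a)⁻¹ :=
  inv_anti₀ (by positivity) (pow_le_pow_right₀ (by linarith) h)

theorem inv_pow_lt {A : ℝ} (hA : 2 ≤ A) {a b : ℕ} (h : a < b) : (A ^ b)⁻¹ < (A ^ a)⁻¹ :=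
  inv_strictAnti₀ (by positivity) (pow_lt_pow_right₀ (by linarith) h)

theorem log_eps {A C : ℝ} (hA : 2 ≤ A) {m e : ℕ} (hC : Real.exp C ≤ A ^ m) (he : m + 2 ≤ e) :
    Real.log (A ^ e)⁻¹ + C ≤ -1 := by
  have h1 := one_le_two_log hA
  have h2 : C ≤ m * Real.log A := by
    rw [← Real.log_pow]; exact (Real.le_log_iff_exp_le (by positivity)).2 hC
  have h3 : (m : ℝ) + 2 ≤ e := by exact_mod_cast he
  rw [Real.log_inv, Real.log_pow]
  nlinarith

/-- The exit lemma with an explicit level. -/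
theorem exit {G : Network d} {kmin kmax : ℝ}
    {I : Finset (Fin d)} {κ' B C η : ℝ} {V : (Fin d → ℝ) → ℝ}
    (hV : IsUPotential G kmin kmax I κ' B V C η) {ε κ : ℝ} (hε : 0 < ε)
    (hεC' : Real.log ε + C ≤ -1) (hκε : κ ≤ ε)
    (hκ : ∀ y, 0 < y → y < κ → -(ε / (d + 1)) ≤ y * (Real.log y - C)) :
    ∀ (x : ℝ → Fin d → ℝ) (s t : ℝ), s ≤ t → TSeg G kmin kmax x s t →
      (∀ r ∈ Set.Icc s t, (∀ i ∈ I, x r i ≤ ε) → ∀ i ∉ I, κ' ≤ x r i ∧ x r i ≤ B) →
      (∃ i ∈ I, ε ≤ x s i) → ∃ i ∈ I, κ ≤ x t i := by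
  have hεC : Real.log ε + C < 0 := by linarith
  set μ := -(ε * (Real.log ε + C)) with hμ
  have hμε : ε ≤ μ := by
    rw [hμ]; nlinarith
  have hμ0 : 0 < μ := by linarith
  have hμd : 0 < μ / (d + 1) := by (clear * - hμ0; positivity)
  intro x s t hst hx hreg hs
  by_contra hcon
  push Not at hcon
  let A : Set ℝ := ⋃ i ∈ I, (Set.Icc s t ∩ (fun r => x r i) ⁻¹' Set.Ici ε)
  have hAc : IsClosed A := by
    apply isClosed_biUnion_finset
    intro i _
    exact (hx.continuousOn_apply i).preimage_isClosed_of_isClosed isClosed_Icc isClosed_Ici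
  have hmemA : ∀ r, r ∈ A ↔ r ∈ Set.Icc s t ∧ ∃ i ∈ I, ε ≤ x r i := by
    intro r
    simp only [A, Set.mem_iUnion, Set.mem_inter_iff, Set.mem_preimage, Set.mem_Ici]
    constructor
    · rintro ⟨i, hi, h1, h2⟩; exact ⟨h1, i, hi, h2⟩
    · rintro ⟨h1, i, hi, h2⟩; exact ⟨i, hi, h1, h2⟩
  have hsA : s ∈ A := (hmemA s).2 ⟨⟨le_rfl, hst⟩, hs⟩
  have hAb : BddAbove A := ⟨t, fun r hr => ((hmemA r).1 hr).1.2⟩
  have hs'A : sSup A ∈ A := hAc.csSup_mem ⟨s, hsA⟩ hAb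
  set s' := sSup A with hs'def
  obtain ⟨⟨hs'1, hs'2⟩, i₀, hi₀, hi₀ε⟩ := (hmemA s').1 hs'A
  have htA : t ∉ A := by
    intro h
    obtain ⟨_, i, hi, hi'⟩ := (hmemA t).1 h
    have := hcon i hi
    exact absurd (lt_of_lt_of_le this hκε) (not_lt.mpr hi')
  have hs't : s' < t := by
    rcases eq_or_lt_of_le hs'2 with h | h
    · exact absurd (h ▸ hs'A) htA
    · exact h
  have hlt : ∀ r ∈ Set.Ioc s' t, ∀ i ∈ I, x r i < ε := by
    intro r hr i hi
    by_contra hc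
    push Not at hc
    have : r ∈ A := (hmemA r).2 ⟨⟨hs'1.trans hr.1.le, hr.2⟩, i, hi, hc⟩
    exact absurd (le_csSup hAb this) (not_le.mpr hr.1)
  have hle : ∀ i ∈ I, x s' i ≤ ε := by
    intro i hi
    have h1 : ContinuousWithinAt (fun r => x r i) (Set.Ioc s' t) s' :=
      (hx.continuousOn_apply i s' ⟨hs'1, hs'2⟩).mono
        (fun r hr => ⟨hs'1.trans hr.1.le, hr.2⟩)
    have hcl : s' ∈ closure (Set.Ioc s' t) := by
      rw [closure_Ioc hs't.ne]
      exact ⟨le_rfl, hs't.le⟩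
    have h2 := h1.mem_closure hcl (t := Set.Iic ε) (fun r hr => (hlt r hr i hi).le)
    rw [isClosed_Iic.closure_eq] at h2
    exact h2
  have hseg : TSeg G kmin kmax x s' t := hx.mono hs'1 le_rfl
  have hdec := hV.decrease hs't.le hseg (by
    intro r hr
    apply hreg r ⟨hs'1.trans hr.1, hr.2⟩
    intro i hi
    rcases eq_or_lt_of_le hr.1 with h | h
    · rw [← h]; exact hle i hi
    · exact (hlt r ⟨h, hr.2⟩ i hi).le)
  have hup : V (x s') ≤ -μ := by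
    refine (hV.upper (x s') (fun i _ => hseg.2 s' ⟨le_rfl, hs't.le⟩ i)).trans ?_
    have hterm : ∀ i ∈ I, x s' i * (Real.log (x s' i) + C) ≤ 0 := by
      intro i hi
      have h0 := hseg.2 s' ⟨le_rfl, hs't.le⟩ i
      have h1 : Real.log (x s' i) ≤ Real.log ε := Real.log_le_log h0 (hle i hi)
      exact mul_nonpos_of_nonneg_of_nonpos h0.le (by linarith only [hεC, h1])
    have h1 : ∑ i ∈ I, x s' i * (Real.log (x s' i) + C) ≤
        x s' i₀ * (Real.log (x s' i₀) + C) := by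
      have := Finset.single_le_sum (f := fun i => -(x s' i * (Real.log (x s' i) + C)))
        (fun i hi => by have := hterm i hi; linarith only [this]) hi₀
      simp only [Finset.sum_neg_distrib] at this
      linarith only [this]
    have h2 : x s' i₀ = ε := le_antisymm (hle i₀ hi₀) hi₀ε
    rw [h2] at h1
    linarith only [h1]
  have hlow : -μ < V (x t) := by
    refine lt_of_lt_of_le ?_ (hV.lower (x t) (fun i _ => hseg.2 t ⟨hs't.le, le_rfl⟩ i))
    have hterm : ∀ i ∈ I, -(μ / (d + 1)) ≤ x t i * (Real.log (x t i) - C) := by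
      intro i hi
      have h0 := hseg.2 t ⟨hs't.le, le_rfl⟩ i
      have h1 := hκ (x t i) h0 (hcon i hi)
      have h2 : ε / (d + 1) ≤ μ / (d + 1) := div_le_div_of_nonneg_right hμε (by positivity)
      linarith only [h1, h2]
    have h1 := Finset.sum_le_sum hterm
    rw [Finset.sum_const, nsmul_eq_mul] at h1
    refine lt_of_lt_of_le ?_ h1
    have h2 : (I.card : ℝ) ≤ d := by
      have := Finset.card_le_univ I
      rw [Fintype.card_fin] at this
      exact_mod_cast this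
    have h3 : (I.card : ℝ) * (μ / (d + 1)) ≤ d * (μ / (d + 1)) :=
      mul_le_mul_of_nonneg_right h2 hμd.le
    have h4 : (d : ℝ) * (μ / (d + 1)) < μ := by
      rw [mul_div_assoc', div_lt_iff₀ (by (clear * -; positivity))]
      nlinarith only [hμ0]
    linarith only [h3, h4]
  linarith only [hdec, hup, hlow]

theorem small_aux {y C : ℝ} (hC : 0 ≤ C) (hy : 0 < y) (hy1 : y ≤ 1) :
    -(Real.sqrt y * (2 * Real.exp C)) ≤ y * (Real.log y - C) := by
  set s := Real.sqrt y with hs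
  have hs0 : 0 < s := Real.sqrt_pos.2 hy
  have hss : s * s = y := Real.mul_self_sqrt hy.le
  have hs1 : s ≤ 1 := Real.sqrt_le_one.2 hy1
  have h1 : Real.log y = 2 * Real.log s := by
    rw [← hss, Real.log_mul hs0.ne' hs0.ne']; ring
  have h2 : Real.log s⁻¹ ≤ s⁻¹ - 1 := Real.log_le_sub_one_of_pos (by positivity)
  rw [Real.log_inv] at h2
  have h3 : -(s * Real.log s) ≤ 1 := by
    have := mul_le_mul_of_nonneg_left h2 hs0.le
    rw [mul_sub, mul_inv_cancel₀ hs0.ne'] at this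
    linarith
  have h4 := Real.add_one_le_exp C
  rw [h1, ← hss]
  have h5 : s * s * C ≤ s * C := by
    apply mul_le_mul_of_nonneg_right _ hC
    nlinarith
  nlinarith

theorem exit_poly (d m e : ℕ) (he : m + 2 ≤ e) : ∃ e' : ℕ, e ≤ e' ∧ ∀ A : ℝ, 2 ≤ A →
    ∀ {G : Network d} {kmin kmax : ℝ} {I : Finset (Fin d)} {κ' B C η : ℝ}
      {V : (Fin d → ℝ) → ℝ}, IsUPotential G kmin kmax I κ' B V C η → Real.exp C ≤ A ^ m →
    ∀ (x : ℝ → Fin d → ℝ) (s t : ℝ), s ≤ t → TSeg G kmin kmax x s t →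
      (∀ r ∈ Set.Icc s t, (∀ i ∈ I, x r i ≤ (A ^ e)⁻¹) → ∀ i ∉ I, κ' ≤ x r i ∧ x r i ≤ B) →
      (∃ i ∈ I, (A ^ e)⁻¹ ≤ x s i) → ∃ i ∈ I, (A ^ e')⁻¹ ≤ x t i := by
  obtain ⟨q, hq⟩ := le_pow (2 * ((d : ℝ) + 1))
  refine ⟨2 * (e + m + q), by omega, fun A hA G kmin kmax I κ' B C η V hV hC => ?_⟩
  have hA0 : 0 < A := by linarith
  refine exit hV (by positivity) (log_eps hA hC he) (inv_pow_le hA (by omega)) fun y hy hyκ => ?_
  have hy1 : y ≤ 1 := by
    have := inv_pow_le hA (Nat.zero_le (2 * (e + m + q)))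
    rw [pow_zero, inv_one] at this
    linarith
  refine le_trans ?_ (small_aux hV.C_nonneg hy hy1)
  have h1 : Real.sqrt y ≤ (A ^ (e + m + q))⁻¹ := by
    apply Real.sqrt_le_iff.2 ⟨by positivity, ?_⟩
    rw [inv_pow, ← pow_mul, mul_comm]
    exact hyκ.le
  have h2 : Real.sqrt y * (2 * Real.exp C) ≤ (A ^ (e + m + q))⁻¹ * (2 * A ^ m) :=
    mul_le_mul h1 (by linarith) (by positivity) (by positivity)
  have h3 : (A ^ (e + m + q))⁻¹ * (2 * A ^ m) ≤ (A ^ e)⁻¹ / (d + 1) := by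
    rw [le_div_iff₀ (by positivity), pow_add, pow_add]
    have h4 : (A ^ e * A ^ m * A ^ q)⁻¹ * (2 * A ^ m) * ((d : ℝ) + 1) =
        (A ^ e)⁻¹ * (2 * ((d : ℝ) + 1) / A ^ q) := by field_simp
    rw [h4]
    apply mul_le_of_le_one_right (by positivity)
    rw [div_le_one (by positivity)]
    exact hq A hA
  linarith

theorem V_le {G : Network d} {kmin kmax : ℝ} {I : Finset (Fin d)} {κ B C η : ℝ}
    {V : (Fin d → ℝ) → ℝ} (hV : IsUPotential G kmin kmax I κ B V C η) {R Q : ℝ} (hR : 0 ≤ R)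
    (hC : Real.exp C ≤ Q) {x : Fin d → ℝ} (hx : ∀ i, 0 < x i ∧ x i ≤ R) :
    V x ≤ d * (R * (R + Q)) := by
  refine (hV.upper x fun i _ => (hx i).1).trans ?_
  have hC0 := hV.C_nonneg
  have hCQ : C ≤ Q := by linarith [Real.add_one_le_exp C]
  have h1 : ∑ i ∈ I, x i * (Real.log (x i) + C) ≤ ∑ i ∈ I, R * (R + Q) := by
    refine Finset.sum_le_sum fun i _ => ?_
    have h2 : Real.log (x i) ≤ x i - 1 := Real.log_le_sub_one_of_pos (hx i).1
    calc x i * (Real.log (x i) + C) ≤ x i * (R + Q) :=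
          mul_le_mul_of_nonneg_left (by linarith [(hx i).2]) (hx i).1.le
      _ ≤ R * (R + Q) := mul_le_mul_of_nonneg_right (hx i).2 (by linarith)
  rw [Finset.sum_const, nsmul_eq_mul] at h1
  refine h1.trans (mul_le_mul_of_nonneg_right ?_ (mul_nonneg hR (by linarith)))
  have := Finset.card_le_univ I
  rw [Fintype.card_fin] at this
  exact_mod_cast this

/-- polynomial bound of a coordinate from a bound of the full potential -/
theorem coord_le (d m : ℕ) : ∃ M : ℕ, ∀ A : ℝ, 2 ≤ A → ∀ (C : ℝ) (x : Fin d → ℝ),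
    Real.exp C ≤ A ^ m → (∀ i, 0 < x i) →
    ∑ i, x i * (Real.log (x i) - C) ≤ d * (A * (A + A ^ m)) + 1 → ∀ i, x i ≤ A ^ M := by
  have hpb : PB fun A => Real.exp 1 * A ^ m + (d * (A * (A + A ^ m)) + 1 + d * A ^ m) :=
    ((PB.const _).mul (PB.pow m) fun A hA => by positivity).add
      ((((PB.const _).mul (PB.id.mul (PB.id.add (PB.pow m)) fun A hA => by positivity)
        fun A hA => by positivity).add (PB.const 1)).add
        ((PB.const _).mul (PB.pow m) fun A hA => by positivity))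
  obtain ⟨M, hM⟩ := hpb
  refine ⟨M, fun A hA C x hC hx hs i => (bound_of_sum C _ x hx hs i).trans
    (le_trans ?_ (hM A hA))⟩
  have hA0 : 0 < A := by linarith
  have h1 : Real.exp (C + 1) ≤ Real.exp 1 * A ^ m := by
    rw [Real.exp_add, mul_comm]; exact mul_le_mul_of_nonneg_left hC (Real.exp_pos 1).le
  have h2 : (d : ℝ) * Real.exp C ≤ d * A ^ m := mul_le_mul_of_nonneg_left hC (by positivity)
  have h3 : 0 ≤ Real.exp 1 * A ^ m := by positivity
  have h4 : 0 ≤ d * (A * (A + A ^ m)) + 1 + d * A ^ m := by positivity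
  exact max_le (by linarith) (by linarith)

theorem apriori_up (G : Network d) (hG : G.Endotactic) : ∃ M : ℕ, ∀ A : ℝ, 2 ≤ A →
    ∀ (x : ℝ → Fin d → ℝ) (t : ℝ), 0 ≤ t → TSeg G A⁻¹ A x 0 t → (∀ i, x 0 i ≤ A) →
      ∀ i, x t i ≤ A ^ M := by
  obtain ⟨m, hm⟩ := upot G hG 0
  obtain ⟨M, hM⟩ := coord_le d m
  refine ⟨M, fun A hA x t ht hx hx0 => ?_⟩
  obtain ⟨V, C, η, hV, hC, -⟩ := hm Finset.univ A hA
  have h1 := hV.decrease ht hx (fun r _ i hi => absurd (Finset.mem_univ i) hi)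
  have hpos := hx.2 t ⟨ht, le_rfl⟩
  have h2 := V_le hV (by linarith) hC fun i => ⟨hx.2 0 ⟨le_rfl, ht⟩ i, hx0 i⟩
  have h3 := hV.lower (x t) fun i _ => hpos i
  exact hM A hA C (x t) hC hpos (by linarith)

theorem card_step {I : Finset (Fin d)} {n : ℕ} (hIn : Iᶜ.card < n + 1) {j : Fin d}
    (hj : j ∉ I) : (insert j I)ᶜ.card < n := by
  have h1 : (insert j I)ᶜ ⊂ Iᶜ := by
    rw [Finset.compl_ssubset_compl]
    exact Finset.ssubset_insert hj
  have := Finset.card_lt_card h1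
  omega

theorem apriori_low (G : Network d) (hG : G.Endotactic) (j : ℕ) :
    ∀ (n : ℕ) (I : Finset (Fin d)), I.Nonempty → Iᶜ.card < n → ∃ e : ℕ, ∀ A : ℝ, 2 ≤ A →
      ∀ (x : ℝ → Fin d → ℝ) (t : ℝ), 0 ≤ t → TSeg G A⁻¹ A x 0 t → (∀ i, A⁻¹ ≤ x 0 i) →
        (∀ r ∈ Set.Icc 0 t, ∀ i, x r i ≤ A ^ j) → ∃ i ∈ I, (A ^ e)⁻¹ ≤ x t i := by
  intro n
  induction n with
  | zero => intro I _ h; exact absurd h (Nat.not_lt_zero _)
  | succ n ih =>
    intro I hI hIn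
    have hstep : ∀ l : Fin d, ∃ e : ℕ, l ∉ I → ∀ A : ℝ, 2 ≤ A →
        ∀ (x : ℝ → Fin d → ℝ) (t : ℝ), 0 ≤ t → TSeg G A⁻¹ A x 0 t → (∀ i, A⁻¹ ≤ x 0 i) →
        (∀ r ∈ Set.Icc 0 t, ∀ i, x r i ≤ A ^ j) → ∃ i ∈ insert l I, (A ^ e)⁻¹ ≤ x t i := by
      intro l
      by_cases hl : l ∈ I
      · exact ⟨0, fun h => absurd hl h⟩
      · obtain ⟨e, h⟩ := ih (insert l I) (Finset.insert_nonempty _ _) (card_step hIn hl)
        exact ⟨e, fun _ => h⟩
    choose ef hef using hstep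
    set e₁ := j + ∑ l, ef l with he₁
    have hle : ∀ l, ef l ≤ e₁ := fun l =>
      (Finset.single_le_sum (f := ef) (fun _ _ => Nat.zero_le _) (Finset.mem_univ l)).trans
        (Nat.le_add_left _ _)
    obtain ⟨m, hm⟩ := upot G hG e₁
    obtain ⟨e', -, hex⟩ := exit_poly d m (e₁ + m + 2) (by omega)
    refine ⟨e', fun A hA x t ht hx hx0 hxB => ?_⟩
    obtain ⟨V, C, η, hV, hC, -⟩ := hm I A hA
    apply hex A hA hV hC x 0 t ht hx
    · intro r hr hrI l hl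
      refine ⟨?_, (hxB r hr l).trans (pow_le_pow_right₀ (by linarith) (by omega))⟩
      obtain ⟨i, hi, hi'⟩ := hef l hl A hA x r hr.1 (hx.mono le_rfl hr.2) hx0
        (fun r' hr' => hxB r' ⟨hr'.1, hr'.2.trans hr.2⟩)
      rcases Finset.mem_insert.mp hi with h | h
      · rw [h] at hi'
        exact (inv_pow_le hA (hle l)).trans hi'
      · exfalso
        have h1 := hrI i h
        have h2 := inv_pow_lt hA (show ef l < e₁ + m + 2 by have := hle l; omega)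
        linarith only [hi', h1, h2]
    · obtain ⟨i, hi⟩ := hI
      refine ⟨i, hi, le_trans ?_ (hx0 i)⟩
      have := inv_pow_le hA (show 1 ≤ e₁ + m + 2 by omega)
      rwa [pow_one] at this

theorem Box.mono {A B : ℝ} {x : Fin d → ℝ} (h : Box A x) (hA : 0 < A) (hAB : A ≤ B) :
    Box B x := fun i => ⟨(inv_anti₀ hA hAB).trans (h i).1, (h i).2.trans hAB⟩

theorem Box.pos {A : ℝ} {x : Fin d → ℝ} (h : Box A x) (hA : 0 < A) (i : Fin d) : 0 < x i :=
  lt_of_lt_of_le (inv_pos.2 hA) (h i).1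

theorem apriori (G : Network d) (hG : G.Endotactic) : ∃ M : ℕ, 1 ≤ M ∧ ∀ A : ℝ, 2 ≤ A →
    ∀ (x : ℝ → Fin d → ℝ) (t : ℝ), 0 ≤ t → TSeg G A⁻¹ A x 0 t → Box A (x 0) →
      Box (A ^ M) (x t) := by
  obtain ⟨j, hj⟩ := apriori_up G hG
  choose e he using fun i : Fin d =>
    apriori_low G hG j _ {i} (Finset.singleton_nonempty i) (Nat.lt_succ_self _)
  refine ⟨j + ∑ i, e i + 1, by omega, fun A hA x t ht hx hx0 i => ⟨?_, ?_⟩⟩
  · obtain ⟨l, hl, h⟩ := he i A hA x t ht hx (fun i => (hx0 i).1)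
      fun r hr => hj A hA x r hr.1 (hx.mono le_rfl hr.2) fun i => (hx0 i).2
    rw [Finset.mem_singleton.1 hl] at h
    refine (inv_pow_le hA ?_).trans h
    have := Finset.single_le_sum (f := e) (fun _ _ => Nat.zero_le _) (Finset.mem_univ i)
    omega
  · exact (hj A hA x t ht hx (fun i => (hx0 i).2) i).trans
      (pow_le_pow_right₀ (by linarith) (by omega))

theorem monomial_lower (G : Network d) : ∃ D : ℕ, ∀ R : ℝ, 2 ≤ R → ∀ x : Fin d → ℝ,
    Box R x → ∀ r ∈ G.reactions, (R ^ D)⁻¹ ≤ ∏ i, x i ^ r.1 i := by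
  obtain ⟨N, hN⟩ := exists_exponent_bound G
  refine ⟨N * d, fun R hR x hx r hr => ?_⟩
  have h1 : (R ^ (N * d))⁻¹ = ∏ _i : Fin d, (R ^ N)⁻¹ := by
    rw [Finset.prod_const, Finset.card_univ, Fintype.card_fin, inv_pow, ← pow_mul]
  rw [h1]
  refine Finset.prod_le_prod (fun i _ => by positivity) fun i _ => ?_
  refine (inv_pow_le hR (hN _ (G.source_mem r hr) i)).trans ?_
  rw [← inv_pow]
  exact pow_le_pow_left₀ (by positivity) (hx i).1 _

theorem reaction_large (G : Network d) : ∃ h > 0, ∀ R : ℝ, 0 < R → ∀ v ∈ G.stoich,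
    (∀ i, |v i| ≤ R) → ∀ p : Fin d → ℝ, R⁻¹ / 2 ≤ ∑ i, p i * v i →
      ∃ r ∈ G.reactions, h / R ^ 2 ≤ |∑ i, p i * ((r.2 i : ℝ) - (r.1 i : ℝ))| := by
  obtain ⟨h, hh, H⟩ := exists_reaction_large G 1
  refine ⟨h, hh, fun R hR v hv hb p hp => ?_⟩
  obtain ⟨r, hr, h1⟩ := H (R⁻¹ • v) (G.stoich.smul_mem _ hv) (fun i => by
    rw [Pi.smul_apply, smul_eq_mul, abs_mul, abs_of_pos (inv_pos.2 hR), inv_mul_le_iff₀ hR,
      mul_one]
    exact hb i) (fun i => R ^ 2 * p i) (by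
    have : ∑ i, R ^ 2 * p i * (R⁻¹ • v) i = R * ∑ i, p i * v i := by
      rw [Finset.mul_sum]
      refine Finset.sum_congr rfl fun i _ => ?_
      rw [Pi.smul_apply, smul_eq_mul]; field_simp
    rw [this]
    have h2 := mul_le_mul_of_nonneg_left hp hR.le
    have h3 : R * (R⁻¹ / 2) = 1 / 2 := by field_simp
    linarith)
  refine ⟨r, hr, ?_⟩
  have : ∑ i, R ^ 2 * p i * ((r.2 i : ℝ) - (r.1 i : ℝ)) =
      R ^ 2 * ∑ i, p i * ((r.2 i : ℝ) - (r.1 i : ℝ)) := by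
    rw [Finset.mul_sum]
    exact Finset.sum_congr rfl fun i _ => by ring
  rw [this, abs_mul, abs_of_pos (by positivity : (0 : ℝ) < R ^ 2)] at h1
  rw [div_le_iff₀ (by positivity)]
  linarith

/-- A potential cannot decrease strictly for more than a polynomial time. -/
theorem descent (G : Network d) (m : ℕ) : ∃ M : ℕ, ∀ R : ℝ, 2 ≤ R →
    ∀ {kmin kmax : ℝ} {I : Finset (Fin d)} {κ B C η : ℝ} {V : (Fin d → ℝ) → ℝ},
      IsUPotential G kmin kmax I κ B V C η → Real.exp C ≤ R ^ m → (R ^ m)⁻¹ ≤ η →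
      ∀ c : Fin d → ℝ, Box R c → ∀ (x : ℝ → Fin d → ℝ) (s : ℝ),
      TSeg G kmin kmax x s (s + R ^ M) →
      (∀ r ∈ Set.Icc s (s + R ^ M), Box R (x r) ∧ x r - c ∈ G.stoich ∧
        (∀ i ∉ I, κ ≤ x r i ∧ x r i ≤ B) ∧ ∀ p : Fin d → ℝ, (∀ i ∉ I, p i = 0) →
        (∀ x' : Fin d → ℝ, (∀ i ∈ I, 0 < x' i) →
          V (x r) - 1 / 2 + ∑ i, p i * (x' i - x r i) ≤ V x') →
        (∀ i ∈ I, |p i - Real.log (x r i)| ≤ C) → R⁻¹ / 2 ≤ ∑ i, p i * (x r - c) i) →
      False := by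
  obtain ⟨D, hD⟩ := monomial_lower G
  obtain ⟨h, hh, hl⟩ := reaction_large G
  have hpb : PB fun R => (d * (R * (R + R ^ m)) + d * R ^ m + 1) * (h⁻¹ * R ^ (m + 2 + D)) :=
    ((((PB.const _).mul (PB.id.mul (PB.id.add (PB.pow m)) fun A hA => by positivity)
        fun A hA => by positivity).add
        ((PB.const _).mul (PB.pow m) fun A hA => by positivity)).add (PB.const 1)).mul
      ((PB.const _).mul (PB.pow _) fun A hA => by positivity) fun A hA => by positivity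
  obtain ⟨M, hM⟩ := hpb
  refine ⟨M, fun R hR kmin kmax I κ B C η V hV hC hη c hc x s hx hall => ?_⟩
  have hR0 : 0 < R := by linarith
  have hs : s ≤ s + R ^ M := le_add_of_nonneg_right (by positivity)
  have hdec := hV.decrease_strict hs hx (fun r hr => (hall r hr).2.2.1)
    (h := h / R ^ 2) (m := (R ^ D)⁻¹) (by positivity) (by positivity)
    (fun r hr => hD R hR (x r) (hall r hr).1) (fun r hr p h1 h2 h3 => by
      obtain ⟨hb, hcl, -, hp⟩ := hall r hr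
      refine hl R hR0 _ hcl (fun i => ?_) p (hp p h1 h2 h3)
      have a1 := hb.pos hR0 i
      have a2 := hc.pos hR0 i
      rw [Pi.sub_apply, abs_le]
      constructor <;> linarith [(hb i).2, (hc i).2])
  have hb0 := (hall s ⟨le_rfl, hs⟩).1
  have hb1 := (hall _ ⟨hs, le_rfl⟩).1
  have h1 := V_le hV hR0.le hC fun i => ⟨hb0.pos hR0 i, (hb0 i).2⟩
  have h2 := (sum_ge I C _ fun i _ => hb1.pos hR0 i).trans (hV.lower _ fun i _ => hb1.pos hR0 i)
  have h3 : (d : ℝ) * Real.exp C ≤ d * R ^ m := mul_le_mul_of_nonneg_left hC (by positivity)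
  have h4 : (R ^ m)⁻¹ * (h / R ^ 2) * (R ^ D)⁻¹ * R ^ M ≤
      η * (h / R ^ 2) * (R ^ D)⁻¹ * (s + R ^ M - s) := by
    rw [add_sub_cancel_left]
    gcongr
  have h5 : d * (R * (R + R ^ m)) + d * R ^ m + 1 ≤
      (R ^ m)⁻¹ * (h / R ^ 2) * (R ^ D)⁻¹ * R ^ M := by
    have h6 := mul_le_mul_of_nonneg_left (hM R hR)
      (show 0 ≤ (R ^ m)⁻¹ * (h / R ^ 2) * (R ^ D)⁻¹ by positivity)
    refine le_trans (le_of_eq ?_) h6
    beta_reduce
    rw [pow_add, pow_add]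
    field_simp
  linarith

theorem eventual_up (G : Network d) (hG : G.Endotactic) : ∃ M : ℕ, ∀ A R : ℝ, 2 ≤ A → A ≤ R →
    ∀ c : Fin d → ℝ, Box A c → ∀ x : ℝ → Fin d → ℝ, (∀ s t, 0 ≤ s → TSeg G A⁻¹ A x s t) →
      (∀ t, 0 ≤ t → Box R (x t) ∧ x t - c ∈ G.stoich) → ∀ t, R ^ M ≤ t → ∀ i, x t i ≤ A ^ M := by
  obtain ⟨m, hm⟩ := upot G hG 0
  obtain ⟨M₁, hM₁⟩ := coord_le d m
  obtain ⟨M₂, hM₂⟩ := descent G m
  refine ⟨M₁ + M₂, fun A R hA hAR c hc x hseg hbx t ht i => ?_⟩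
  have hA0 : 0 < A := by linarith
  have hR : 2 ≤ R := hA.trans hAR
  have hR0 : 0 < R := by linarith
  obtain ⟨V, C, η, hV, hC, hη⟩ := hm Finset.univ A hA
  have hpow : A ^ m ≤ R ^ m := pow_le_pow_left₀ hA0.le hAR m
  have hex : ∃ r ∈ Set.Icc 0 (0 + R ^ M₂), V (x r) ≤ V c + 1 := by
    by_contra hcon
    push Not at hcon
    refine hM₂ R hR hV (hC.trans hpow) ((inv_anti₀ (by positivity) hpow).trans hη) c
      (hc.mono hA0 hAR) x 0 (hseg _ _ le_rfl) fun r hr => ⟨(hbx r hr.1).1, (hbx r hr.1).2,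
        fun i hi => absurd (Finset.mem_univ i) hi, fun p _ h2 _ => ?_⟩
    have h5 := h2 c (fun i _ => hc.pos hA0 i)
    have h6 := hcon r hr
    have h7 : ∑ i, p i * (x r - c) i = - ∑ i, p i * (c i - x r i) := by
      rw [← Finset.sum_neg_distrib]
      refine Finset.sum_congr rfl fun i _ => ?_
      rw [Pi.sub_apply]; ring
    have h8 : R⁻¹ ≤ 1 := inv_le_one_of_one_le₀ (by linarith)
    rw [h7]
    linarith only [h5, h6, h8]
  obtain ⟨r, hr, hVr⟩ := hex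
  have hrt : r ≤ t := by
    have : R ^ M₂ ≤ R ^ (M₁ + M₂) := pow_le_pow_right₀ (by linarith) (by omega)
    linarith [hr.2]
  have h1 := hV.decrease hrt (hseg r t hr.1) (fun r _ i hi => absurd (Finset.mem_univ i) hi)
  have hpt := (hbx t (hr.1.trans hrt)).1.pos hR0
  have h2 := V_le hV hA0.le hC fun i => ⟨hc.pos hA0 i, (hc i).2⟩
  have h3 := hV.lower (x t) fun i _ => hpt i
  exact (hM₁ A hA C (x t) hC hpt (by linarith) i).trans
    (pow_le_pow_right₀ (by linarith) (by omega))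

theorem eventual_low (G : Network d) (hG : G.Endotactic) (j : ℕ) :
    ∀ (n : ℕ) (I : Finset (Fin d)), I.Nonempty → Iᶜ.card < n → ∃ e : ℕ, ∀ A R : ℝ, 2 ≤ A →
      A ≤ R → ∀ c : Fin d → ℝ, Box A c → ∀ x : ℝ → Fin d → ℝ,
      (∀ s t, 0 ≤ s → TSeg G A⁻¹ A x s t) → (∀ t, 0 ≤ t → Box R (x t) ∧ x t - c ∈ G.stoich) →
      (∀ t, R ^ j ≤ t → ∀ i, x t i ≤ A ^ j) → ∀ t, R ^ e ≤ t → ∃ i ∈ I, (A ^ e)⁻¹ ≤ x t i := by
  intro n
  induction n with
  | zero => intro I _ h; exact absurd h (Nat.not_lt_zero _)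
  | succ n ih =>
    intro I hI hIn
    have hstep : ∀ l : Fin d, ∃ e : ℕ, l ∉ I → ∀ A R : ℝ, 2 ≤ A →
        A ≤ R → ∀ c : Fin d → ℝ, Box A c → ∀ x : ℝ → Fin d → ℝ,
        (∀ s t, 0 ≤ s → TSeg G A⁻¹ A x s t) →
        (∀ t, 0 ≤ t → Box R (x t) ∧ x t - c ∈ G.stoich) →
        (∀ t, R ^ j ≤ t → ∀ i, x t i ≤ A ^ j) → ∀ t, R ^ e ≤ t →
        ∃ i ∈ insert l I, (A ^ e)⁻¹ ≤ x t i := by
      intro l
      by_cases hl : l ∈ I
      · exact ⟨0, fun h => absurd hl h⟩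
      · obtain ⟨e, h⟩ := ih (insert l I) (Finset.insert_nonempty _ _) (card_step hIn hl)
        exact ⟨e, fun _ => h⟩
    choose ef hef using hstep
    set e₁ := j + ∑ l, ef l with he₁
    have hle : ∀ l, ef l ≤ e₁ := fun l =>
      (Finset.single_le_sum (f := ef) (fun _ _ => Nat.zero_le _) (Finset.mem_univ l)).trans
        (Nat.le_add_left _ _)
    obtain ⟨m, hm⟩ := upot G hG e₁
    obtain ⟨e', -, hex⟩ := exit_poly d m (e₁ + m + 2) (by omega)
    obtain ⟨M, hM⟩ := descent G m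
    refine ⟨e' + e₁ + M + 1, fun A R hA hAR c hc x hseg hbx hup t ht => ?_⟩
    have hA0 : 0 < A := by linarith
    have hR : 2 ≤ R := hA.trans hAR
    have hR0 : 0 < R := by linarith
    have hR1 : 1 ≤ R := by linarith
    obtain ⟨V, C, η, hV, hC, hη⟩ := hm I A hA
    have hpow : A ^ m ≤ R ^ m := pow_le_pow_left₀ hA0.le hAR m
    have ht₁ : (0 : ℝ) ≤ R ^ e₁ := by positivity
    have hreg' : ∀ r, R ^ e₁ ≤ r → (∀ i ∈ I, x r i ≤ (A ^ (e₁ + m + 2))⁻¹) →
        ∀ i ∉ I, (A ^ e₁)⁻¹ ≤ x r i ∧ x r i ≤ A ^ e₁ := by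
      intro r hr hrI l hl
      refine ⟨?_, (hup r ((pow_le_pow_right₀ hR1 (by omega)).trans hr) l).trans
        (pow_le_pow_right₀ (by linarith) (by omega))⟩
      obtain ⟨i, hi, hi'⟩ := hef l hl A R hA hAR c hc x hseg hbx hup r
        ((pow_le_pow_right₀ hR1 (hle l)).trans hr)
      rcases Finset.mem_insert.mp hi with h | h
      · rw [h] at hi'
        exact (inv_pow_le hA (hle l)).trans hi'
      · exfalso
        have h1 := hrI i h
        have h2 := inv_pow_lt hA (show ef l < e₁ + m + 2 by have := hle l; omega)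
        linarith only [hi', h1, h2]
    have hvisit : ∃ s ∈ Set.Icc (R ^ e₁) (R ^ e₁ + R ^ M),
        ∃ i ∈ I, (A ^ (e₁ + m + 2))⁻¹ ≤ x s i := by
      by_contra hcon
      push Not at hcon
      refine hM R hR hV (hC.trans hpow) ((inv_anti₀ (by positivity) hpow).trans hη) c
        (hc.mono hA0 hAR) x _ (hseg _ _ ht₁) fun r hr => ⟨(hbx r (ht₁.trans hr.1)).1,
          (hbx r (ht₁.trans hr.1)).2, hreg' r hr.1 fun i hi => (hcon r hr i hi).le,
          fun p hp0 _ h3 => ?_⟩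
      have hpos := (hbx r (ht₁.trans hr.1)).1.pos hR0
      have h7 : ∑ i, p i * (x r - c) i = ∑ i ∈ I, p i * (x r - c) i := by
        symm
        apply Finset.sum_subset (Finset.subset_univ I)
        intro i _ hi
        rw [hp0 i hi, zero_mul]
      rw [h7]
      have hterm : ∀ i ∈ I, R⁻¹ / 2 ≤ p i * (x r - c) i := by
        intro i hi
        have h8 := hcon r hr i hi
        have h9 : Real.log (x r i) ≤ Real.log (A ^ (e₁ + m + 2))⁻¹ :=
          Real.log_le_log (hpos i) h8.le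
        have h10 := (abs_le.mp (h3 i hi)).2
        have h11 : p i ≤ -1 := by
          linarith only [log_eps hA hC (show m + 2 ≤ e₁ + m + 2 by omega), h9, h10]
        have h12 : (A ^ (e₁ + m + 2))⁻¹ ≤ A⁻¹ / 2 := by
          refine (inv_pow_le hA (show 2 ≤ e₁ + m + 2 by omega)).trans ?_
          rw [pow_two, mul_inv, div_eq_mul_inv]
          exact mul_le_mul_of_nonneg_left (inv_anti₀ two_pos hA) (by positivity)
        have h13 : R⁻¹ ≤ A⁻¹ := inv_anti₀ hA0 hAR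
        have h14 : (x r - c) i ≤ -(R⁻¹ / 2) := by
          rw [Pi.sub_apply]; linarith only [h8, h12, h13, (hc i).1]
        have h15 : 0 < R⁻¹ := by positivity
        nlinarith only [h11, h14, h15]
      obtain ⟨i₀, hi₀⟩ := hI
      have h8 := Finset.single_le_sum (f := fun i => p i * (x r - c) i)
        (fun i hi => le_trans (by positivity) (hterm i hi)) hi₀
      exact (hterm i₀ hi₀).trans h8
    obtain ⟨s, hs, hsI⟩ := hvisit
    have hst : s ≤ t := by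
      have a1 : R ^ e₁ ≤ R ^ (e' + e₁ + M) := pow_le_pow_right₀ hR1 (by omega)
      have a2 : R ^ M ≤ R ^ (e' + e₁ + M) := pow_le_pow_right₀ hR1 (by omega)
      have a3 : 0 ≤ R ^ (e' + e₁ + M) := by positivity
      rw [pow_succ] at ht
      nlinarith [hs.2]
    obtain ⟨i, hi, h⟩ := hex A hA hV hC x s t hst (hseg s t (ht₁.trans hs.1))
      (fun r hr => hreg' r (hs.1.trans hr.1)) hsI
    exact ⟨i, hi, (inv_pow_le hA (by omega)).trans h⟩

theorem TGlobal.mono {G : Network d} {A B : ℝ} (hA : 0 < A) (hAB : A ≤ B)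
    {x : ℝ → Fin d → ℝ} (hx : TGlobal G A⁻¹ A x) : TGlobal G B⁻¹ B x := by
  obtain ⟨k, hk, hx⟩ := hx
  exact ⟨k, fun r hr => ⟨(hk r hr).1, fun t ht => ⟨(inv_anti₀ hA hAB).trans ((hk r hr).2 t ht).1,
    ((hk r hr).2 t ht).2.trans hAB⟩⟩, hx⟩

theorem seg_of_global {G : Network d} (hG : G.Endotactic) {A : ℝ} (hA : 0 < A)
    {x : ℝ → Fin d → ℝ} (hx : TGlobal G A⁻¹ A x) (h0 : ∀ i, 0 < x 0 i) (s t : ℝ) (hs : 0 ≤ s) :
    TSeg G A⁻¹ A x s t := by
  obtain ⟨κ, hκ, B, hbox⟩ := H603.tv_global_box G hG A⁻¹ A (inv_pos.2 hA) hA (x 0) h0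
  exact hx.seg hs fun r hr i => lt_of_lt_of_le hκ (hbox x hx rfl r hr i).1

/-- Permanence with polynomial bounds. -/
theorem poly (G : Network d) (hG : G.Endotactic) : ∃ M : ℕ, 1 ≤ M ∧ ∀ A : ℝ, 2 ≤ A →
    ∀ x : ℝ → Fin d → ℝ, TGlobal G A⁻¹ A x →
      (Box A (x 0) → ∀ t, 0 ≤ t → Box (A ^ M) (x t)) ∧
      ∀ c : Fin d → ℝ, Box A c → x 0 - c ∈ G.stoich → ∀ B : ℝ, A ≤ B → Box B (x 0) →
        ∀ t, B ^ M ≤ t → Box (A ^ M) (x t) := by
  obtain ⟨M₀, hM₀1, hM₀⟩ := apriori G hG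
  obtain ⟨j, hj⟩ := eventual_up G hG
  choose e he using fun i : Fin d =>
    eventual_low G hG j _ {i} (Finset.singleton_nonempty i) (Nat.lt_succ_self _)
  set E := j + ∑ i, e i + 1 with hE
  have hEM : E ≤ M₀ * E := Nat.le_mul_of_pos_left _ hM₀1
  have hMM : M₀ ≤ M₀ * E := Nat.le_mul_of_pos_right _ (by omega)
  refine ⟨M₀ * E, hM₀1.trans hMM, fun A hA x hx => ⟨fun h0 t ht => ?_,
    fun c hc hcl B hAB h0 t ht i => ?_⟩⟩
  · have hA0 : 0 < A := by linarith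
    exact (hM₀ A hA x t ht (seg_of_global hG hA0 hx (h0.pos hA0) 0 t le_rfl) h0).mono
      (by positivity) (pow_le_pow_right₀ (by linarith) hMM)
  have hA0 : 0 < A := by linarith
  have hB : 2 ≤ B := hA.trans hAB
  have hB0 : 0 < B := by linarith
  have hseg := seg_of_global hG hA0 hx (h0.pos hB0)
  have hAR : A ≤ B ^ M₀ := hAB.trans (le_self_pow₀ (by linarith) (by omega))
  have hR1 : 1 ≤ B ^ M₀ := by linarith
  have hbx : ∀ t, 0 ≤ t → Box (B ^ M₀) (x t) ∧ x t - c ∈ G.stoich := fun t ht => by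
    refine ⟨hM₀ B hB x t ht (seg_of_global hG hB0 (TGlobal.mono hA0 hAB hx) (h0.pos hB0) 0 t
      le_rfl) h0, ?_⟩
    have h2 := G.stoich.add_mem ((hseg 0 t le_rfl).sub_mem ht) hcl
    rwa [sub_add_sub_cancel] at h2
  have hup := hj A _ hA hAR c hc x hseg hbx
  rw [pow_mul] at ht
  have hei : e i ≤ E := by
    have := Finset.single_le_sum (f := e) (fun _ _ => Nat.zero_le _) (Finset.mem_univ i)
    omega
  constructor
  · obtain ⟨l, hl, h⟩ := he i A _ hA hAR c hc x hseg hbx hup t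
      ((pow_le_pow_right₀ hR1 hei).trans ht)
    rw [Finset.mem_singleton.1 hl] at h
    exact (inv_pow_le hA (hei.trans hEM)).trans h
  · exact (hup t ((pow_le_pow_right₀ hR1 (by omega)).trans ht) i).trans
      (pow_le_pow_right₀ (by linarith) (by omega))

end Vale.Agent.N072
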