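import Vale.Agent.P072.H603.Main

/-! # Potentials with polynomial constants -/

set_option linter.all false

namespace Vale.Agent.N072

open Vale.Agent.P072 Finset

variable {d : ℕ}

theorem le_pow (c : ℝ) : ∃ m : ℕ, ∀ A : ℝ, 2 ≤ A → c ≤ A ^ m := by
  obtain ⟨m, hm⟩ := pow_unbounded_of_one_lt c (one_lt_two (α := ℝ))
  exact ⟨m, fun A hA => hm.le.trans (pow_le_pow_left₀ zero_le_two hA m)⟩

theorem one_le_two_log {A : ℝ} (hA : 2 ≤ A) : 1 ≤ 2 * Real.log A := by
  have h1 := Real.log_le_log two_pos hA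
  have h2 := Real.log_two_gt_d9
  linarith

theorem params (n N : ℕ) : ∃ c : ℝ, 0 ≤ c ∧ ∀ δ : ℝ, ∃ P : Pot.Params, P.n = n ∧
    (N : ℤ) ≤ P.B P.n ∧ P.lam ≤ P.T ∧ δ ≤ P.T ∧
    (2 * P.n * N + 2) * P.D ^ P.n ≤ P.m P.n ∧ P.tmax + 1 + |P.lam| ≤ c * (1 + |δ|) := by
  obtain ⟨P, hPn, hN, hlam, -, hm⟩ := Pot.exists_params n N 0
  have hT := P.hT
  have hm0 : 3 ≤ P.m 0 := P.m_ge_three (Nat.zero_le _)
  refine ⟨P.T * (P.m 0 + 1) + 1, by positivity, fun δ => ?_⟩
  have hδ := abs_nonneg δ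
  let Q : Pot.Params := { P with T := P.T + |δ|, hT := by linarith }
  have hQt : Q.tmax = (P.T + |δ|) * P.m 0 := rfl
  have hQT : Q.T = P.T + |δ| := rfl
  have hPt : P.tmax = P.T * P.m 0 := rfl
  have hn0 : (0 : ℝ) ≤ P.n := Nat.cast_nonneg _
  have hl : Q.lam ≤ Q.T := by
    have h1 : Real.exp Q.lam = 16 * (P.n + 1) * (Q.tmax + 1) := Q.exp_lam
    have h2 : Real.exp P.lam = 16 * (P.n + 1) * (P.tmax + 1) := P.exp_lam
    have h3 : Real.exp P.lam ≤ Real.exp P.T := Real.exp_le_exp.2 hlam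
    have h4 : |δ| + 1 ≤ Real.exp |δ| := Real.add_one_le_exp _
    have h5 : Q.tmax + 1 ≤ (P.tmax + 1) * (|δ| + 1) := by
      rw [hQt, hPt]
      have : |δ| * P.m 0 ≤ |δ| * (P.T * P.m 0) := by
        apply mul_le_mul_of_nonneg_left _ hδ
        nlinarith
      nlinarith
    apply Real.exp_le_exp.1
    rw [h1, hQT, Real.exp_add]
    calc 16 * ((P.n : ℝ) + 1) * (Q.tmax + 1)
        ≤ 16 * (P.n + 1) * ((P.tmax + 1) * (|δ| + 1)) :=
          mul_le_mul_of_nonneg_left h5 (by positivity)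
      _ = Real.exp P.lam * (|δ| + 1) := by rw [h2]; ring
      _ ≤ Real.exp P.T * Real.exp |δ| :=
          mul_le_mul h3 h4 (by positivity) (Real.exp_pos _).le
  have hl0 : 0 ≤ Q.lam := by
    have h1 : Real.exp Q.lam = 16 * (P.n + 1) * (Q.tmax + 1) := Q.exp_lam
    have h2 := Q.tmax_ge_one
    apply Real.exp_le_exp.1
    rw [Real.exp_zero, h1]
    nlinarith
  refine ⟨Q, hPn, hN, hl, ?_, hm, ?_⟩
  · rw [hQT]; linarith [le_abs_self δ]
  · rw [abs_of_nonneg hl0, hQt]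
    rw [hQT] at hl
    have h1 : |δ| * (P.m 0 + 1) ≤ (P.T * (P.m 0 + 1) + 1) * |δ| := by
      have : P.m 0 + 1 ≤ P.T * (P.m 0 + 1) + 1 := by nlinarith
      nlinarith
    nlinarith

theorem pot_fin (n N : ℕ) : ∃ c : ℝ, 0 ≤ c ∧ ∀ δ C : ℝ, c * (1 + |δ|) ≤ C →
    ∃ V : (Fin n → ℝ) → ℝ,
    (∀ x, (∀ i, 0 < x i) → ∑ i, x i * (Real.log (x i) - C) ≤ V x ∧
        V x ≤ ∑ i, x i * (Real.log (x i) + C)) ∧
    (∀ x, (∀ i, 0 < x i) → ∀ ε > 0, ∃ p : Fin n → ℝ,
       (∀ x', (∀ i, 0 < x' i) → V x - ε + ∑ i, p i * (x' i - x i) ≤ V x') ∧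
       (∀ i, |p i - Real.log (x i)| ≤ C) ∧
       (∀ v : Fin n → ℤ, (∀ i, |v i| ≤ N) → 0 < ∑ i, (v i : ℝ) * p i →
          δ < ∑ i, (v i : ℝ) * Real.log (x i))) := by
  obtain ⟨c, hc, h⟩ := params n N
  refine ⟨c, hc, fun δ C hC => ?_⟩
  obtain ⟨P, hPn, hN, hlam, hδ, hm, hb⟩ := h δ
  subst hPn
  have ht := Pot.tmax_nonneg P
  have h0 := abs_nonneg P.lam
  refine ⟨Pot.pot P, fun x hx => ⟨?_, ?_⟩, fun x hx ε hε => ?_⟩
  · refine le_trans (sum_le_sum fun i _ => ?_) (Pot.le_pot P hx)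
    apply mul_le_mul_of_nonneg_left _ (hx i).le
    linarith
  · refine le_trans (Pot.pot_le P hx) (sum_le_sum fun i _ => ?_)
    apply mul_le_mul_of_nonneg_left _ (hx i).le
    linarith
  · obtain ⟨p, h1, h2, h3⟩ := Pot.potential_params P hN hlam hδ hm hx hε
    refine ⟨p, h1, fun i => (h2 i).trans ?_, h3⟩
    have := le_abs_self P.lam
    linarith

theorem pot_subset1 (I : Finset (Fin d)) (N : ℕ) : ∃ c : ℝ, 0 ≤ c ∧ ∀ δ C : ℝ,
    c * (1 + |δ|) ≤ C → ∃ V : (Fin d → ℝ) → ℝ,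
    (∀ x, (∀ i ∈ I, 0 < x i) → ∑ i ∈ I, x i * (Real.log (x i) - C) ≤ V x ∧
        V x ≤ ∑ i ∈ I, x i * (Real.log (x i) + C)) ∧
    (∀ x, (∀ i ∈ I, 0 < x i) → ∀ ε > 0, ∃ p : Fin d → ℝ, (∀ i ∉ I, p i = 0) ∧
       (∀ x', (∀ i ∈ I, 0 < x' i) → V x - ε + ∑ i, p i * (x' i - x i) ≤ V x') ∧
       (∀ i ∈ I, |p i - Real.log (x i)| ≤ C) ∧
       (∀ v : Fin d → ℤ, (∀ i, |v i| ≤ N) → 0 < ∑ i, (v i : ℝ) * p i →
          δ < ∑ i ∈ I, (v i : ℝ) * Real.log (x i))) := by
  classical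
  obtain ⟨c, hc, hh⟩ := pot_fin I.card N
  refine ⟨c, hc, fun δ C hC => ?_⟩
  obtain ⟨V, hbd, hgrad⟩ := hh δ C hC
  set e : I ≃ Fin I.card := I.equivFin with he
  -- reindexing of sums over `I`
  have hsum : ∀ g : Fin d → ℝ, ∑ i ∈ I, g i = ∑ j : Fin I.card, g (e.symm j) := by
    intro g
    rw [← Finset.sum_coe_sort I g]
    exact (Equiv.sum_comp e.symm (fun i : I => g i)).symm
  refine ⟨fun x => V (fun j => x (e.symm j)), fun x hx => ?_, fun x hx ε hε => ?_⟩
  · have h := hbd (fun j => x (e.symm j)) (fun j => hx _ (e.symm j).2)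
    rw [hsum, hsum]
    exact h
  · obtain ⟨p, h1, h2, h3⟩ := hgrad (fun j => x (e.symm j)) (fun j => hx _ (e.symm j).2) ε hε
    -- sums against the extended covector
    have hp : ∀ g : Fin d → ℝ, ∑ i, (if h : i ∈ I then p (e ⟨i, h⟩) else 0) * g i =
        ∑ j : Fin I.card, p j * g (e.symm j) := by
      intro g
      rw [← Finset.sum_subset (Finset.subset_univ I) (fun i _ hi => by simp [hi]),
        hsum]
      refine sum_congr rfl fun j _ => ?_
      simp
    refine ⟨fun i => if h : i ∈ I then p (e ⟨i, h⟩) else 0, fun i hi => by simp [hi],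
      fun x' hx' => ?_, fun i hi => ?_, fun v hv hpos => ?_⟩
    · have h := h1 (fun j => x' (e.symm j)) (fun j => hx' _ (e.symm j).2)
      rw [hp (fun i => x' i - x i)]
      exact h
    · have h := h2 (e ⟨i, hi⟩)
      simp only [Equiv.symm_apply_apply] at h
      simpa only [hi, ↓reduceDIte, ge_iff_le] using h
    · have h4 : ∑ i, (v i : ℝ) * (if h : i ∈ I then p (e ⟨i, h⟩) else 0) =
          ∑ j : Fin I.card, (v (e.symm j) : ℝ) * p j := by
        have := hp (fun i => (v i : ℝ))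
        simp only [mul_comm] at this ⊢
        rw [this]
      rw [h4] at hpos
      have h5 := h3 (fun j => v (e.symm j)) (fun j => hv _) hpos
      rw [hsum]
      exact h5

theorem pot_subset (d N : ℕ) : ∃ c : ℝ, 0 ≤ c ∧ ∀ (I : Finset (Fin d)) (δ C : ℝ),
    c * (1 + |δ|) ≤ C → ∃ V : (Fin d → ℝ) → ℝ,
    (∀ x, (∀ i ∈ I, 0 < x i) → ∑ i ∈ I, x i * (Real.log (x i) - C) ≤ V x ∧
        V x ≤ ∑ i ∈ I, x i * (Real.log (x i) + C)) ∧
    (∀ x, (∀ i ∈ I, 0 < x i) → ∀ ε > 0, ∃ p : Fin d → ℝ, (∀ i ∉ I, p i = 0) ∧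
       (∀ x', (∀ i ∈ I, 0 < x' i) → V x - ε + ∑ i, p i * (x' i - x i) ≤ V x') ∧
       (∀ i ∈ I, |p i - Real.log (x i)| ≤ C) ∧
       (∀ v : Fin d → ℤ, (∀ i, |v i| ≤ N) → 0 < ∑ i, (v i : ℝ) * p i →
          δ < ∑ i ∈ I, (v i : ℝ) * Real.log (x i))) := by
  choose c hc h using fun I : Finset (Fin d) => pot_subset1 I N
  refine ⟨∑ I, c I, sum_nonneg fun I _ => hc I, fun I δ C hC => h I δ C (le_trans ?_ hC)⟩
  exact mul_le_mul_of_nonneg_right (single_le_sum (fun I _ => hc I) (mem_univ I))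
    (by positivity)

/-- Network lemma with explicit constants. -/
theorem net (G : Network d) (hG : G.Endotactic) : ∃ c : ℝ, 1 ≤ c ∧
    ∀ kmin kmax : ℝ, 0 < kmin → 0 < kmax → ∀ k : (Fin d → ℕ) × (Fin d → ℕ) → ℝ,
      (∀ r ∈ G.reactions, kmin ≤ k r ∧ k r ≤ kmax) →
      ∀ x p : Fin d → ℝ, (∀ i, 0 < x i) →
      (∀ y ∈ G.complexes, ∀ z ∈ G.complexes,
        0 < ∑ i, p i * ((z i : ℝ) - (y i : ℝ)) →
        c * kmax / kmin * ∏ i, x i ^ y i ≤ ∏ i, x i ^ z i) →
      (∑ i, p i * G.field k x i ≤ 0) ∧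
      (∀ h : ℝ, 0 ≤ h → ∀ r ∈ G.reactions, h ≤ |∑ i, p i * ((r.2 i : ℝ) - (r.1 i : ℝ))| →
        ∀ m : ℝ, 0 ≤ m → (∀ r' ∈ G.reactions, m ≤ ∏ i, x i ^ r'.1 i) →
        ∑ i, p i * G.field k x i ≤ - (kmin / c * h * m)) := by
  classical
  obtain ⟨cd, hcd, hcd1, hdropG⟩ := H603.exists_drop G hG
  set N1 : ℝ := 1 / cd with hN1
  have hN1pos : 0 < N1 := by (clear * - hcd; positivity)
  have hN1ge : 1 ≤ N1 := by rw [hN1, le_div_iff₀ hcd, one_mul]; exact hcd1
  set n1 : ℝ := (G.reactions.card : ℝ) + 1 with hn1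
  have hn1pos : 0 < n1 := by (clear * -; positivity)
  have hn1ge : 1 ≤ n1 := by
    have : (0 : ℝ) ≤ G.reactions.card := Nat.cast_nonneg _
    linarith only [this, hn1]
  refine ⟨2 * n1 * N1, by nlinarith only [hn1ge, hN1ge],
    fun kmin kmax hkmin hkmax k hkk x p hx halign => ?_⟩
  set E : ℝ := 2 * n1 * N1 * kmax / kmin with hE
  have hEpos : 0 < E := by (clear * - hkmax hkmin hN1pos hn1pos; positivity)
  have hk : ∀ r ∈ G.reactions, 0 < k r := fun r hr => lt_of_lt_of_le hkmin (hkk r hr).1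
  have hkmin' : ∀ r ∈ G.reactions, kmin ≤ k r := fun r hr => (hkk r hr).1
  have hkmax' : ∀ r ∈ G.reactions, k r ≤ kmax := fun r hr => (hkk r hr).2
  set D : (Fin d → ℕ) × (Fin d → ℕ) → ℝ :=
    fun r => ∑ i, p i * ((r.2 i : ℝ) - (r.1 i : ℝ)) with hD
  set M : (Fin d → ℕ) → ℝ := fun y => ∏ i, x i ^ y i with hM
  have hMpos : ∀ y, 0 < M y := fun y => Finset.prod_pos fun i _ => pow_pos (hx i) _
  set w : (Fin d → ℕ) × (Fin d → ℕ) → ℝ := fun r => k r * M r.1 with hw
  have hwpos : ∀ r ∈ G.reactions, 0 < w r := fun r hr => mul_pos (hk r hr) (hMpos _)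
  set NEG : ℝ := ∑ r ∈ G.reactions, w r * max 0 (- D r) with hNEG
  have hNEGnn : 0 ≤ NEG := Finset.sum_nonneg fun r hr =>
    mul_nonneg (hwpos r hr).le (le_max_left _ _)
  have hterm : ∀ r ∈ G.reactions, w r * (- D r) ≤ NEG := by
    intro r hr
    calc w r * (- D r) ≤ w r * max 0 (- D r) :=
          mul_le_mul_of_nonneg_left (le_max_right _ _) (hwpos r hr).le
      _ ≤ NEG := Finset.single_le_sum (f := fun r => w r * max 0 (- D r))
          (fun r hr => mul_nonneg (hwpos r hr).le (le_max_left _ _)) hr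
  -- the negative partner of a positive reaction
  have hpartner : ∀ r ∈ G.reactions, 0 < D r → ∃ r' ∈ G.reactions,
      E * M r.1 ≤ M r'.1 ∧ D r ≤ N1 * (- D r') ∧ 0 < - D r' := by
    intro r hr hDr
    obtain ⟨r', hr', hlev, hdrop0⟩ := hdropG p r hr hDr
    have hdrop : D r ≤ N1 * (- D r') := by
      have h1 : N1 * (cd * D r) ≤ N1 * (- D r') := mul_le_mul_of_nonneg_left hdrop0 hN1pos.le
      have h2 : N1 * (cd * D r) = D r := by rw [hN1]; (clear * - hcd; field_simp)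
      linarith only [h1, h2]
    refine ⟨r', hr', ?_, hdrop, ?_⟩
    · exact halign r.1 (G.source_mem r hr) r'.1 (G.source_mem r' hr') hlev
    · have : 0 < N1 * (- D r') := lt_of_lt_of_le hDr hdrop
      exact (pos_iff_pos_of_mul_pos this).1 hN1pos
  have hpos : ∀ r ∈ G.reactions, w r * D r ≤ 1 / (2 * n1) * NEG - w r * max 0 (- D r) := by
    intro r hr
    rcases le_or_gt (D r) 0 with hle | hgt
    · have : max 0 (- D r) = - D r := max_eq_right (by linarith only [hle])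
      rw [this]
      have : 0 ≤ 1 / (2 * n1) * NEG := by (clear * - hNEGnn; positivity)
      linarith only [this]
    · have h0 : max 0 (- D r) = 0 := max_eq_left (by linarith only [hgt])
      rw [h0, mul_zero, sub_zero]
      obtain ⟨r', hr', hMM, hdrop, hneg⟩ := hpartner r hr hgt
      have h1 : w r ≤ kmax * M r.1 := mul_le_mul_of_nonneg_right (hkmax' r hr) (hMpos _).le
      have h2 : M r.1 ≤ M r'.1 / E := by
        rw [le_div_iff₀ hEpos]; linarith only [hMM]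
      have h3 : kmin * M r'.1 ≤ w r' := mul_le_mul_of_nonneg_right (hkmin' r' hr') (hMpos _).le
      have h4 : w r' * (- D r') ≤ NEG := hterm r' hr'
      calc w r * D r ≤ (kmax * M r.1) * (N1 * (- D r')) :=
            mul_le_mul h1 hdrop hgt.le (by have := hMpos r.1; (clear * - hkmax this; positivity))
        _ ≤ (kmax * (M r'.1 / E)) * (N1 * (- D r')) := by
            apply mul_le_mul_of_nonneg_right
            · exact mul_le_mul_of_nonneg_left h2 hkmax.le
            · (clear * - hneg hN1pos; positivity)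
        _ = 1 / (2 * n1) * ((kmin * M r'.1) * (- D r')) := by
            rw [hE]; (clear * - hkmax hN1pos hkmin hn1pos; field_simp)
        _ ≤ 1 / (2 * n1) * (w r' * (- D r')) := by
            apply mul_le_mul_of_nonneg_left _ (by (clear * -; positivity))
            exact mul_le_mul_of_nonneg_right h3 hneg.le
        _ ≤ 1 / (2 * n1) * NEG := mul_le_mul_of_nonneg_left h4 (by (clear * -; positivity))
  have hmain : ∑ i, p i * G.field k x i ≤ - (1 / 2) * NEG := by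
    rw [sum_mul_field]
    have hsum : ∑ r ∈ G.reactions, w r * D r ≤
        ∑ r ∈ G.reactions, (1 / (2 * n1) * NEG - w r * max 0 (- D r)) :=
      Finset.sum_le_sum hpos
    rw [Finset.sum_sub_distrib, Finset.sum_const, nsmul_eq_mul] at hsum
    have hcard : (G.reactions.card : ℝ) * (1 / (2 * n1) * NEG) ≤ 1 / 2 * NEG := by
      have h5 : (G.reactions.card : ℝ) ≤ n1 := by rw [hn1]; linarith only []
      calc (G.reactions.card : ℝ) * (1 / (2 * n1) * NEG) ≤ n1 * (1 / (2 * n1) * NEG) :=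
            mul_le_mul_of_nonneg_right h5 (by (clear * - hNEGnn; positivity))
        _ = 1 / 2 * NEG := by (clear * - hn1pos; field_simp)
    have : ∑ r ∈ G.reactions, w r * D r ≤ - (1 / 2) * NEG := by linarith only [hsum, hcard]
    exact this
  refine ⟨by linarith only [hNEGnn, hmain], fun h hh r hr hhr m hm hmM => ?_⟩
  -- lower bound for NEG
  have hkey : kmin * m * (h / N1) ≤ NEG := by
    rcases lt_trichotomy (D r) 0 with hneg | hzero | hposD
    · have habs : |D r| = - D r := abs_of_neg hneg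
      have h1 : h ≤ - D r := by rw [← habs]; exact hhr
      calc kmin * m * (h / N1) ≤ kmin * m * h := by
            apply mul_le_mul_of_nonneg_left _ (by (clear * - hkmin hm; positivity))
            exact div_le_self hh hN1ge
        _ ≤ w r * (- D r) := by
            apply mul_le_mul _ h1 hh (hwpos r hr).le
            exact mul_le_mul (hkmin' r hr) (hmM r hr) hm (hk r hr).le
        _ ≤ NEG := hterm r hr
    · have : |D r| = 0 := by rw [hzero, abs_zero]
      have h1 : h ≤ 0 := by rw [← this]; exact hhr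
      have h2 : h = 0 := le_antisymm h1 hh
      rw [h2]; simpa only [zero_div, mul_zero, ge_iff_le] using hNEGnn
    · have habs : |D r| = D r := abs_of_pos hposD
      have h1 : h ≤ D r := by rw [← habs]; exact hhr
      obtain ⟨r', hr', _, hdrop, hneg⟩ := hpartner r hr hposD
      have h2 : h / N1 ≤ - D r' := by
        rw [div_le_iff₀ hN1pos]; linarith only [hhr, habs, hdrop]
      calc kmin * m * (h / N1) ≤ w r' * (- D r') := by
            apply mul_le_mul _ h2 (by (clear * - hh hN1pos; positivity)) (hwpos r' hr').le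
            exact mul_le_mul (hkmin' r' hr') (hmM r' hr') hm (hk r' hr').le
        _ ≤ NEG := hterm r' hr'
  have hlast : kmin / (2 * n1 * N1) * h * m ≤ kmin / (2 * N1) * h * m := by
    apply mul_le_mul_of_nonneg_right _ hm
    apply mul_le_mul_of_nonneg_right _ hh
    apply div_le_div_of_nonneg_left hkmin.le (by positivity)
    nlinarith only [hn1ge, hN1pos]
  calc ∑ i, p i * G.field k x i ≤ - (1 / 2) * NEG := hmain
    _ ≤ - (1 / 2) * (kmin * m * (h / N1)) := by linarith only [hkey]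
    _ = - (kmin / (2 * N1) * h * m) := by (clear * - hN1pos hkmin; field_simp)
    _ ≤ _ := by linarith only [hlast]

/-- Potentials with constants polynomial in the size `A` of the rates and of the region. -/
theorem upot (G : Network d) (hG : G.Endotactic) (j : ℕ) : ∃ m : ℕ,
    ∀ (I : Finset (Fin d)) (A : ℝ), 2 ≤ A → ∃ (V : (Fin d → ℝ) → ℝ) (C η : ℝ),
      IsUPotential G A⁻¹ A I (A ^ j)⁻¹ (A ^ j) V C η ∧ Real.exp C ≤ A ^ m ∧ (A ^ m)⁻¹ ≤ η := by
  classical
  obtain ⟨c, hc, hnet⟩ := net G hG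
  obtain ⟨N, hN⟩ := exists_exponent_bound G
  obtain ⟨c₀, hc₀, hsub⟩ := pot_subset d N
  obtain ⟨m₁, hm₁⟩ := le_pow c
  obtain ⟨m₂, hm₂⟩ := exists_nat_ge (c₀ * (4 + m₁ + d * (N * (2 * j))))
  refine ⟨m₂ + m₁ + 1, fun I A hA => ?_⟩
  have hA0 : 0 < A := by linarith
  have hA1 : 1 ≤ A := by linarith
  have hlog := one_le_two_log hA
  have hlog0 : 0 ≤ Real.log A := by linarith
  set κ : ℝ := (A ^ j)⁻¹ with hκdef
  set B : ℝ := A ^ j with hBdef
  have hκ : 0 < κ := by positivity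
  set E : ℝ := c * A / A⁻¹ with hEdef
  have hE : 0 < E := by positivity
  set L : ℝ := |Real.log κ| + |Real.log B| with hL
  have hLnn : 0 ≤ L := by (clear * -; positivity)
  have hLe : L = 2 * j * Real.log A := by
    rw [hL, hκdef, Real.log_inv, abs_neg, hBdef, Real.log_pow, abs_of_nonneg (by positivity)]
    ring
  have hE1 : Real.log E = Real.log c + 2 * Real.log A := by
    rw [hEdef, div_inv_eq_mul, Real.log_mul (by positivity) hA0.ne',
      Real.log_mul (by positivity) hA0.ne']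
    ring
  have hc0 : 0 ≤ Real.log c := Real.log_nonneg hc
  have hc1 : Real.log c ≤ m₁ * Real.log A := by
    rw [← Real.log_pow]; exact Real.log_le_log (by linarith) (hm₁ A hA)
  have hCle : c₀ * (1 + |Real.log E + d * (N * L)|) ≤ m₂ * Real.log A := by
    rw [abs_of_nonneg (by rw [hE1]; positivity), hE1, hLe]
    calc c₀ * (1 + (Real.log c + 2 * Real.log A + d * (N * (2 * j * Real.log A))))
        ≤ c₀ * ((4 + m₁ + d * (N * (2 * j))) * Real.log A) := by
          apply mul_le_mul_of_nonneg_left _ hc₀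
          nlinarith
      _ = c₀ * (4 + m₁ + d * (N * (2 * j))) * Real.log A := by ring
      _ ≤ _ := mul_le_mul_of_nonneg_right hm₂ hlog0
  obtain ⟨V, hbd, hgrad⟩ := hsub I (Real.log E + d * (N * L)) _ hCle
  refine ⟨V, m₂ * Real.log A, A⁻¹ / c, ⟨by positivity, by positivity,
    fun x hx => (hbd x hx).1, fun x hx => (hbd x hx).2, ?_⟩, ?_, ?_⟩
  rotate_left
  · rw [← Real.log_pow, Real.exp_log (by positivity)]
    exact pow_le_pow_right₀ hA1 (by omega)
  · rw [div_eq_mul_inv, ← mul_inv]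
    apply inv_anti₀ (by positivity)
    calc A * c ≤ A * A ^ m₁ := mul_le_mul_of_nonneg_left (hm₁ A hA) hA0.le
      _ = A ^ (m₁ + 1) := by ring
      _ ≤ _ := pow_le_pow_right₀ hA1 (by omega)
  intro x hx hxI ε hε
  obtain ⟨p, hp0, hp1, hp2, hp3⟩ := hgrad x (fun i _ => hx i) ε hε
  refine ⟨p, hp0, hp1, hp2, fun k hk => ?_⟩
  apply hnet A⁻¹ A (by positivity) hA0 k hk x p hx
  intro y hy z hz hpos
  apply monomial_le_of_align x hx y z E hE
  have hv : ∀ i, |((z i : ℤ) - (y i : ℤ))| ≤ (N : ℤ) := by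
    intro i
    have h1 := hN y hy i
    have h2 := hN z hz i
    rw [abs_le]
    constructor <;> omega
  have hpos' : 0 < ∑ i, ((((z i : ℤ) - (y i : ℤ) : ℤ)) : ℝ) * p i := by
    have : ∑ i, ((((z i : ℤ) - (y i : ℤ) : ℤ)) : ℝ) * p i =
        ∑ i, p i * ((z i : ℝ) - (y i : ℝ)) := by
      refine Finset.sum_congr rfl fun i _ => ?_
      push_cast; ring
    rw [this]; exact hpos
  have h3 := hp3 (fun i => (z i : ℤ) - (y i : ℤ)) hv hpos'
  have h4 : ∑ i ∈ I, ((((z i : ℤ) - (y i : ℤ) : ℤ)) : ℝ) * Real.log (x i) =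
      ∑ i ∈ I, ((z i : ℝ) - (y i : ℝ)) * Real.log (x i) := by
    refine Finset.sum_congr rfl fun i _ => ?_
    push_cast; ring
  rw [h4] at h3
  have h5 : ∑ i, ((z i : ℝ) - (y i : ℝ)) * Real.log (x i) =
      ∑ i ∈ I, ((z i : ℝ) - (y i : ℝ)) * Real.log (x i) +
      ∑ i ∈ Iᶜ, ((z i : ℝ) - (y i : ℝ)) * Real.log (x i) :=
    (Finset.sum_add_sum_compl I _).symm
  have h6 : |∑ i ∈ Iᶜ, ((z i : ℝ) - (y i : ℝ)) * Real.log (x i)| ≤ d * (N * L) := by
    calc |∑ i ∈ Iᶜ, ((z i : ℝ) - (y i : ℝ)) * Real.log (x i)|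
        ≤ ∑ i ∈ Iᶜ, |((z i : ℝ) - (y i : ℝ)) * Real.log (x i)| :=
          Finset.abs_sum_le_sum_abs _ _
      _ ≤ ∑ i ∈ Iᶜ, (N : ℝ) * L := by
          apply Finset.sum_le_sum
          intro i hi
          rw [abs_mul]
          have hi' : i ∉ I := by simpa using hi
          have h7 : |(z i : ℝ) - (y i : ℝ)| ≤ N := by
            have := hv i
            exact_mod_cast this
          exact mul_le_mul h7 (abs_log_le_of_mem hκ (hxI i hi').1 (hxI i hi').2)
            (abs_nonneg _) (by (clear * -; positivity))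
      _ = (Iᶜ.card : ℝ) * (N * L) := by rw [Finset.sum_const, nsmul_eq_mul]
      _ ≤ d * (N * L) := by
          apply mul_le_mul_of_nonneg_right _ (by (clear * -; positivity))
          have : Iᶜ.card ≤ d := by
            simpa only [Fintype.card_fin] using Finset.card_le_univ (Iᶜ : Finset (Fin d))
          exact_mod_cast this
  have h8 := neg_abs_le (∑ i ∈ Iᶜ, ((z i : ℝ) - (y i : ℝ)) * Real.log (x i))
  rw [h5]
  linarith only [h3, h6, h8]

end Vale.Agent.N072
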